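import Crest.Agent.X212.An.Prt
import Crest.Agent.X212.Mp86.Bd
import Crest.Agent.X212.Nka63.A
import Crest.Agent.X212.Dgr80.Cf

/-!
# Row 212, FIN (helper37): the leaves and the statement of the a priori bound for jobs
-/

set_option autoImplicit false
set_option linter.unusedSectionVars false
noncomputable section
open scoped Manifold ContDiff Topology InnerProductSpace
open MeasureTheory Set Function Filter

namespace Crest.Agent.X212.Fin37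
open An An.Job M Nd18
open Mp86 (L4 TmSz Wts Dom)
open Dgr80 (en LB)

variable {Wi : Type} {X : Mf 4} {A κ lam : Type} [Fintype A] [Fintype κ] [Fintype lam]
  [DecidableEq lam] {M : Mark X A κ} {W : World M} {N : ML M lam}
  {Λ : Lns W N} {A' h : Type} [Fintype A'] [DecidableEq A'] [Fintype h] {r n : ℕ}
  (J : Job Wi Λ A' h r n)

/-- the parameters over `Z c` -/
def Pm (c : M.Cl) (s : A' → ℝ) : Prop := ∃ σ ∈ J.𝒦, s ∈ cl σ ∧ Sys.inf (J.Θ s).2 = c.1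

/-- the active necks -/
abbrev Ix (c : M.Cl) (s : A' → ℝ) : Type := {i : A × Option Bool // J.Ac c s i}

/-- the neck -/
abbrev nk {c : M.Cl} {s : A' → ℝ} (i : Ix J c s) : Nk (J.xs i.1.1).D (J.B c) (J.G c s) :=
  J.K c i.1.1 i.1.2 _ i.2

/-- the points of depth `≤ d` -/
def core (c : M.Cl) (s : A' → ℝ) (d : ℝ) : Set (W.Z c).M := {z | ∀ i : Ix J c s, z ∉ Nka63.O (nk J i) d}

/-- the field term with index `w` -/
abbrev tm (c : M.Cl) (w : Wi) : Tm (W.Z c).M (lam ⊕ lam) r n := (J.tp c).tm (J.tw w)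

/-! ### geometry -/

/-- LEAF DJ: the necks are disjoint -/
def DJ : Prop := ∀ c s, Pm J c s →
  Pairwise fun i j : Ix J c s => Disjoint (nk J i).ψ.target (nk J j).ψ.target

/-- LEAF CPT: the cores are compact -/
def CPT : Prop := ∀ c s, Pm J c s → ∀ d, IsCompact (core J c s d)

/-- LEAF VOL: the volume off the necks is bounded -/
def VOL : Prop := ∃ v, ∀ c s, Pm J c s → (J.G c s).F.μ.real (core J c s 0) ≤ v

/-- LEAF L4U: one Sobolev constant -/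
def L4U : Prop := ∃ S > 0, ∀ c s, Pm J c s → L4 (J.G c s).F.toPre S

/-- LEAF TMSZ: sizes and supports of the field terms -/
def TMSZ : Prop := ∀ w, ∃ k : ℕ, 1 ≤ k ∧ ∀ c s, Pm J c s → J.co w s ≠ 0 →
  TmSz (J.G c s) k (tm J c w) ∧ ∃ L, IsCompact L ∧ (J.G c s).F.μ.real L ≤ k ∧
    ∀ x : Cfg (W.Z c).M (Option κ) (lam ⊕ lam) r, ∀ z ∉ L,
      x.tD (J.B c) (J.G c s).F (tm J c w) z = 0 ∧ x.tC (J.B c) (J.G c s).F (tm J c w) z = 0

/-! ### ends and chains -/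

variable (Adm : (Wi →₀ ℝ) → Prop)

/-- LEAF LIT: solutions have representatives with bounded derivatives -/
def LIT : Prop := ∀ σ ∈ J.𝒦, ∀ c q (y : J.Obc c), Sol σ q y →
  ∃ x, Dgr80.Gd (J.B c) (J.G c y.s) x ∧ Cfg.Iso (J.B c) (J.G c y.s).F x y.x

/-- INPUT ELM: the convergence on the ends is exponential -/
def ELM : Prop := ∀ σ ∈ J.𝒦, ∀ c q (y : J.Obc c), Adm q → Sol σ q y →
  ∀ a b (ha : Act J.m c a (some b) (J.Θ y.s)), ∃ d > 0,
    (J.K c a _ _ ha).ELim d y.x (y.β a b) (y.ζ a b) (bif b then atBot else atTop)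

/-- LEAF FEN (from ELM): finite energy -/
def FEN : Prop := ∀ σ ∈ J.𝒦, ∀ c q (y : J.Obc c), Adm q → Sol σ q y → ∀ i : Ix J c y.s,
  Integrable (fun z => (nk J i).cut 3 ((nk J i).τ z) * en (J.G c y.s).F y.x (nk J i).τ z)
    (J.G c y.s).F.μ

/-- the energy of a chain -/
def cE (S : Xs Wi κ lam) (β β' : YC S.Y.M κ (lam ⊕ lam)) (k : ℝ) : ℝ :=
  k + (S.N.lv S.D β - S.N.lv S.D β') / (8 * Real.pi ^ 2)

/-- chains have nonnegative energy in finitely many classes modulo `ℤ` -/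
def ChX (S : Xs Wi κ lam) : Prop := ∃ (C : ℝ) (V : Set ℝ), V.Finite ∧ ∀ q β ζ β' ζ' k j, Adm q →
  S.N.Crit S.D β → S.N.Crit S.D β' → S.N.Brk S.D (S.q q) β ζ β' ζ' k j →
    0 ≤ cE S β β' k ∧ |cE S β β' k - k| ≤ C ∧ ∃ v ∈ V, ∃ m : ℤ, cE S β β' k = v + m

/-- INPUT CHH -/
def CHH : Prop := ∀ a ∈ J.hw, ¬M.pin a → ChX Adm (J.xs a)

/-! ### the a priori bound -/

variable (W A') in
/-- the weights -/
abbrev Wf : Type := ∀ c : M.Cl, (A' → ℝ) → (W.Z c).M → (W.Z c).M → ℝ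

variable {J} in
/-- the bounds of one solution -/
structure Bnd (w : Wf W A') (C : ℝ) {c : M.Cl} (y : J.Obc c) : Prop where
  le : y.x.Le (J.G c y.s).F (w c y.s) C
  F : ∃ g f, Dom (J.G c y.s).F C g ∧ LB (J.G c y.s).F.μ f C ∧ (∀ z, 0 ≤ f z) ∧ ∀ z,
    ‖y.x.m.p2 (J.B c) z (y.x.m.Fg (J.G c y.s).F y.x.W z)‖ ^ 2 ≤ C + g z ∧
    ‖y.x.m.Fg (J.G c y.s).F y.x.W z‖ ^ 2 ≤
      6 * ‖y.x.m.p2 (J.B c) z (y.x.m.Fg (J.G c y.s).F y.x.W z)‖ ^ 2 + f z
  en : ∀ i : Ix J c y.s, LB (J.G c y.s).F.μ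
    (fun z => (nk J i).cut 3 ((nk J i).τ z) * en (J.G c y.s).F y.x (nk J i).τ z) C
  kap : |y.x.kap (J.B c) (J.G c y.s)| ≤ C
  l : (y.l : ℝ) ≤ C
  k : ∀ a ∈ cylW c, |y.k a| ≤ C

/-- uniform weights -/
structure WU (w : Wf W A') (S v : ℝ) : Prop where
  wts : ∀ c s, Pm J c s → Wts (J.G c s).F S (w c s)
  le : ∀ c s x z, w c s x z ≤ 1
  int : ∀ c s, Pm J c s → ∀ x, LB (J.G c s).F.μ (w c s x) v
  low : ∀ L, ∃ ε > 0, ∀ c s x z, (∀ i : Ix J c s, |(nk J i).τ z - (nk J i).τ x| ≤ L) → ε ≤ w c s x z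

/-- **JOB-APR** -/
def Apr : Prop := ∃ w S v C K, WU J w S v ∧ ∀ σ ∈ J.𝒦, ∀ c q (y : J.Obc c), Adm q → Sol σ q y →
  Bnd w C y ∧ (J.τ c q y.s).Bd (J.B c) (J.G c y.s) (w c y.s) K 1 K

end Crest.Agent.X212.Fin37
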