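import Crest.Agent.X212.Fin37.Apj
import Crest.Agent.X212.Cpt31.Pt
import Crest.Agent.X212.Cmp73.Qcl

/-!
# Row 212, FIN (helper37): the functional is bounded on the critical points; final forms
-/

set_option autoImplicit false
set_option linter.unusedSectionVars false
noncomputable section
open scoped Manifold ContDiff Topology InnerProductSpace
open MeasureTheory Set Function Filter

namespace Crest.Agent.X212.Fin37
open An An.Job M Nd18 Nka63 Mp86

section
variable {E3 : Type} [NormedAddCommGroup E3] [NormedSpace ℝ E3] [FiniteDimensional ℝ E3]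
  [MeasurableSpace E3] [BorelSpace E3]
  {H3 : Type} [TopologicalSpace H3] {I3 : ModelWithCorners ℝ E3 H3} [I3.Boundaryless]
  {Y : Type} [TopologicalSpace Y] [ChartedSpace H3 Y] [IsManifold I3 ∞ Y] [T2Space Y]
  [MeasurableSpace Y] [BorelSpace Y] [SecondCountableTopology Y] [CompactSpace Y]
  {κ : Type} [Fintype κ] {lam : Type} [Fintype lam] {D : YD I3 Y κ lam} {N : ND Y lam}

theorem lv_bd (h : Crt72.HY D) (hN : N.OK D) : ∃ L, ∀ β, N.Crit D β → |N.lv D β| ≤ L := by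
  obtain ⟨T, hT⟩ := Cpt31.tame_Z h
  have S0 : 0 < max 1 (T 0) := by positivity
  let X : NK D (max 1 (T 0)) :=
    ⟨D.nk, h.ok.B, h.ok.G, ⟨T, hT⟩, (l4_of_tame hT).mono (le_max_right _ _)⟩
  obtain ⟨K, hK⟩ := b0_q1 (r := 0) (m := 0) h.ok hN S0
  obtain ⟨σ, hσ⟩ := Cpt31.c0 h K
  obtain ⟨k, hk⟩ := (eventually_all.2 (db_dg (r := 0) h.ok hN S0)).exists
  obtain ⟨L, -, hL⟩ := ball_bd (hN.sm.comp (cd_cx (N := N))) (|k| * vY D)
  refine ⟨√(K * max 1 σ) * √σ * D.F.μ.real univ / 2 + L, fun β c => (abs_add_le _ _).trans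
    (add_le_add ?_ (hL ((N.dg X.K).Iv X.G.F (cy β) 0) ((pi_norm_le_iff_of_nonneg (mul_nonneg
      (abs_nonneg _) (vY_nonneg D))).2 fun i => norm_wn_le X.K hN.δ0 (den_off X i _)
        (fun x _ => (hk i X).le _ c.sol.toAdm x) 0)).1)⟩
  have k := hσ β _ ⟨c.sol.toAdm, c.tmp⟩ c.sol (hK X)
  have := D.F.fin
  rw [abs_div, abs_two]
  refine div_le_div_of_nonneg_right ((Real.norm_eq_abs _).ge.trans
    (norm_integral_le_of_norm_le_const (.of_forall fun y => (norm_inner_le_norm _ _).trans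
      (mul_le_mul ?_ (Real.le_sqrt_of_sq_le (k y)) (norm_nonneg _) (Real.sqrt_nonneg _)))))
    zero_le_two
  rw [norm_neg]
  exact (ContinuousLinearMap.le_opNorm _ _).trans ((mul_le_of_le_one_left (norm_nonneg _)
    (Cmp73.norm_rho h.ok.B c.sol.ok none (y, 0))).trans ((congrArg norm (sub_eq_zero.1
      (c.sol.D (y, 0)))).trans_le (Real.le_sqrt_of_sq_le (((hK X).D _ _ c.sol.toAdm
        (le_max_left _ _) fun x => (k x.1).trans (le_max_right _ _)).le _))))

end

variable {Wi : Type} {X : Mf 4} {A κ lam : Type} [Fintype A] [Fintype κ] [Fintype lam]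
  [DecidableEq lam] {M : Mark X A κ} {W : World M} {N : ML M lam}
  {Λ : Lns W N} {A' h : Type} [Fintype A'] [DecidableEq A'] [Fintype h] {r n : ℕ}
  {J : Job Wi Λ A' h r n} (hJ : J.OK)
include hJ

theorem hy (a : A) : Crt72.HY (J.xs a).D := ⟨(hJ.xs a).1.yd, conn_xs J a, (J.xs a).Y.dim⟩

/-- **LVB** -/
theorem lvb : LVB J := fun a _ _ => lv_bd (hy hJ a) (hJ.xs a).2

theorem apr' (tz : TMSZ J) (lit : LIT J) : An.Sml fun Adm => FEN J Adm → CHH J Adm → Apr J Adm :=
  apr hJ tz lit (lvb hJ)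

theorem finE' (tz : TMSZ J) (lit : LIT J) :
    An.Sml fun Adm => FEN J Adm → CHH J Adm → ∀ σ ∈ J.𝒦, ∀ c, J.FinE σ c Adm :=
  finE hJ tz lit (lvb hJ)

theorem apj' (tz : TMSZ J) (lit : LIT J) :
    An.Sml fun Adm => FEN J Adm → CHH J Adm → Cmp73.APJ J Adm := apj hJ tz lit (lvb hJ)

end Crest.Agent.X212.Fin37
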