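import Crest.Agent.X212.Fin37.Apj
import Crest.Agent.X212.Cpt31.Pt
import Crest.Agent.X212.Bki64.Eng

/-!
# Row 212, FIN (helper37): **APT**, a priori bounds for trajectories
-/

set_option autoImplicit false
set_option linter.unusedSectionVars false
noncomputable section
open scoped Manifold ContDiff Topology InnerProductSpace
open MeasureTheory Set Function Filter

namespace Crest.Agent.X212.Fin37
open An M Nd18 Wz78 Cyf70
open Mp86 (Wts Dom NK)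
open Dgr80 (LB en)
open Cmp73 (AG AN)
open Abel74 (Lh)
open Tmp64 (AdmOn admOn_univ)

section gen
variable {E : Type} [NormedAddCommGroup E] [NormedSpace ℝ E] [FiniteDimensional ℝ E]
  [MeasurableSpace E] [BorelSpace E]
  {HM : Type} [TopologicalSpace HM] {I : ModelWithCorners ℝ E HM} [I.Boundaryless]
  {M : Type} [TopologicalSpace M] [ChartedSpace HM M] [IsManifold I ∞ M]
  [MeasurableSpace M] [T2Space M] [BorelSpace M] [SecondCountableTopology M] {ι : Type} [Fintype ι]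
  {lam : Type} [Fintype lam] {r n : ℕ} {B : Base M ι lam} {G : Geo I M ι lam}
  {c : Cfg M ι lam r} {w : M → M → ℝ} {τ : Pt M ι lam r n} {K σ a S v : ℝ}

theorem lh_le (h : Lh c B G) (hw : Wts G.F S w) (w1 : ∀ x y, w x y ≤ 1)
    (wi : ∀ x, LB G.F.μ (w x) v) : ∃ σ, c.Le G.F w σ := by
  obtain ⟨C, hC⟩ := h.bF
  obtain ⟨R, hR⟩ := h.bΦ
  have k : ∀ x, LB G.F.μ (fun y => (w x y * ‖c.m.Fg G.F c.W y‖) ^ 2) (C ^ 2 * v) := fun x =>
    ((wi x).mul (sq_nonneg C)).mono (((hw.wt x).sm.continuous.mul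
      (Mp86.sm_Fg h.hB h.hG h.ok h.conn).continuous.norm).pow 2).aestronglyMeasurable
      (fun _ => sq_nonneg _) fun y => by
        have p := (hw.wt x).pos y
        rw [mul_pow, mul_comm]
        exact mul_le_mul (pow_le_pow_left₀ (norm_nonneg _) (hC y) 2) (by nlinarith [w1 x y])
          (sq_nonneg _) (sq_nonneg _)
  have o : 1 ≤ max 1 (max (R ^ 2) (C ^ 2 * v)) := le_max_left _ _
  exact ⟨_, o, fun x => le_max_of_le_right (le_max_of_le_left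
    (pow_le_pow_left₀ (norm_nonneg _) (hR x) 2)), fun x => (k x).1, fun x => (k x).2.trans
      ((le_max_of_le_right (le_max_right _ _)).trans (le_self_pow₀ o two_ne_zero))⟩

theorem ag' (H : Lh c B G) (h : c.Sol B G τ) (hτ : τ.Bd B G w K 1 K) (l : c.Le G.F w σ)
    (a0 : 0 ≤ a) (ha : ∀ x, √(∑ s, fP B G x s ^ 2) - sc G x / 4 ≤ a) (S0 : 0 < S)
    (hw : Wts G.F S w) : AG B G c w S (kA K σ a 0) :=
  ⟨H, h.z, S0, hw, Mp86.le_mono l le_kA, (Shi84.dom_p2 H.hB h hτ l).mono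
    (le_max_of_le_right (le_max_left _ _)) fun _ => le_rfl, (dom_nab H.hB H.hG h hτ l a0 ha).mono
    (le_max_of_le_right (le_max_right _ _)) fun _ => le_rfl⟩

end gen

variable {E3 : Type} [NormedAddCommGroup E3] [NormedSpace ℝ E3] [FiniteDimensional ℝ E3]
  [MeasurableSpace E3] [BorelSpace E3]
  {H3 : Type} [TopologicalSpace H3] {I3 : ModelWithCorners ℝ E3 H3} [I3.Boundaryless]
  {Y : Type} [TopologicalSpace Y] [ChartedSpace H3 Y] [IsManifold I3 ∞ Y] [T2Space Y]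
  [MeasurableSpace Y] [BorelSpace Y] [SecondCountableTopology Y] [CompactSpace Y]
  {κ : Type} [Fintype κ] {lam : Type} [Fintype lam] {D : YD I3 Y κ lam} {N : ND Y lam} {r : ℕ}
  {c : Cfg (Y × ℝ) (Option κ) lam r} {β β' : YC Y κ lam} {ζ ζ' : Circle} {l : Filter ℝ}

theorem Fg_sh (h : c.Adm D.B D.G) (s : ℝ) (x : Y × ℝ) (t : Option κ × Option κ) :
    (sh s c).m.Fg D.Z (sh s c).W x t = c.m.Fg D.Z c.W (Tmp64.sq (· + s) x) t := by
  have e : ∀ k, D.Z.c t.1 t.2 k x = D.Z.c t.1 t.2 k (Tmp64.sq (· + s) x) := fun k => by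
    rcases t with ⟨_ | _, _ | _⟩ <;> cases k <;> rfl
  refine congrArg (fun T => c.m.pg (Tmp64.sq (· + s) x) (hsL T)) ?_
  have e1 := fun a b => Bki64.dv_sh (D := D) (x := x) (s := s) (h.conn.cc.sm b _) a
  exact congrArg₂ (· - ·) (congrArg₂ (· + ·) (congrArg₂ (· - ·) (e1 _ _) (e1 _ _)) rfl)
    (Finset.sum_congr rfl fun k _ => congrArg (· • c.W k (Tmp64.sq (· + s) x)) (e k))

variable (h : Crt72.HY D)
include h

/-- bounds along an end -/
theorem bd_end (hβ : D.Adm β) (hc : c.Adm D.B D.G) (H : D.nk.Lim c β ζ l) : ∃ C, ∀ᶠ s in l, ∀ y,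
    ‖c.Φ (y, s)‖ ≤ C ∧ ‖c.m.Fg D.Z c.W (y, s)‖ ≤ C := by
  obtain ⟨u : Y × ℝ → CL c.m.V (cy β).m.V, H⟩ := H
  obtain ⟨S, a, -, f⟩ := H 1 1 one_pos
  obtain ⟨C, k⟩ := (Bki64.q_bd h.ok.B isOpen_univ (admOn_univ.2 hβ.adm) (Bki64.cwin_cpt 0 1)
    (subset_univ _)).exists
  obtain ⟨P, hP⟩ := (Cpt31.lh_cy h hβ).bΦ
  obtain ⟨R, hR⟩ := (Cpt31.lh_cy h hβ).bF
  have A : AdmOn c D.B D.G (univ ×ˢ S) := (admOn_univ.2 hc).mono (subset_univ _)
  have g := Bki64.cl_of_cls (c := c) hβ A f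
  refine ⟨max (1 + P) √(R ^ 2 + Fintype.card (Option κ × Option κ) * (C * 1)),
    eventually_of_mem a fun s hs y => ⟨le_max_of_le_left ?_,
      le_max_of_le_right (Real.le_sqrt_of_sq_le ?_)⟩⟩
  · have e : ‖cs (cy β).m.J ζ (u (y, s) (c.Φ (y, s)))‖ = ‖c.Φ (y, s)‖ := by
      rw [Mp86.norm_cs hβ.adm.ok.Jsq hβ.adm.ok.Jsk, Circle.norm_coe, one_mul,
        ← sq_eq_sq₀ (norm_nonneg _) (norm_nonneg _), ← real_inner_self_eq_norm_sq,
        (g.iso.iso (y, s) ⟨trivial, hs⟩).inner, Eqv71.p_Φ (Eqv71.ad0 hc), real_inner_self_eq_norm_sq]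
    exact e.ge.trans ((norm_le_norm_sub_add _ _).trans
      (add_le_add (g.P.le (x := (y, s)) ⟨trivial, hs⟩) (hP (y, s))))
  · have e : Tmp64.sq (· + s) (y, 0) = (y, s) := by simp [Tmp64.sq]
    have := fun t => (abs_le.1 ((k r _ _ ζ _ 1 (Bki64.admOn_sh A s) (g.sh s) le_rfl (y, 0)
      ⟨(e.symm ▸ ⟨trivial, hs⟩ : Tmp64.sq (· + s) (y, 0) ∈ univ ×ˢ S), trivial, by simp⟩).1 t t)).2
    simp only [Bki64.qF, real_inner_self_eq_norm_sq] at this
    rw [PiLp.norm_sq_eq_of_L2]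
    refine (Finset.sum_le_sum fun t _ => ((congrArg (‖·‖ ^ 2) ((Fg_sh hc s (y, 0) t).trans
      (by rw [e]))).ge.trans (sub_le_iff_le_add'.1 (this t)))).trans ?_
    rw [Finset.sum_add_distrib, ← PiLp.norm_sq_eq_of_L2, Finset.sum_const, nsmul_eq_mul]
    exact add_le_add_left (pow_le_pow_left₀ (norm_nonneg _) (hR _) 2) _

/-- configurations with limits at both ends are bounded -/
theorem lh_lim (hβ : D.Adm β) (hβ' : D.Adm β') (hc : c.Adm D.B D.G) (H : D.nk.Lim c β ζ atBot)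
    (H' : D.nk.Lim c β' ζ' atTop) : Lh c D.B D.G := by
  obtain ⟨C, k⟩ := bd_end h hβ hc H
  obtain ⟨C', k'⟩ := bd_end h hβ' hc H'
  obtain ⟨a, k⟩ := eventually_atBot.1 k
  obtain ⟨b, k'⟩ := eventually_atTop.1 k'
  have key : ∀ f : Y × ℝ → ℝ, Continuous f → (∀ s ≤ a, ∀ y, f (y, s) ≤ C) →
      (∀ s ≥ b, ∀ y, f (y, s) ≤ C') → ∃ R, ∀ x, f x ≤ R := fun f hf h1 h2 => by
    obtain ⟨R, hR⟩ := (isCompact_univ.prod (isCompact_Icc (a := a) (b := b))).bddAbove_image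
      hf.continuousOn
    refine ⟨max R (max C C'), fun x => ?_⟩
    rcases le_total x.2 a with e | e
    · exact le_max_of_le_right (le_max_of_le_left (h1 _ e _))
    rcases le_total b x.2 with e' | e'
    · exact le_max_of_le_right (le_max_of_le_right (h2 _ e' _))
    · exact le_max_of_le_left (hR ⟨x, ⟨trivial, e, e'⟩, rfl⟩)
  exact ⟨h.ok.B, h.ok.G, Cpt31.tame_Z h, hc.ok, hc.conn, hc.sm, hc.pos,
    key _ hc.sm.continuous.norm (fun s e y => (k s e y).1) fun s e y => (k' s e y).1,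
    key _ (Mp86.sm_Fg h.ok.B h.ok.G hc.ok hc.conn).continuous.norm (fun s e y => (k s e y).2)
      fun s e y => (k' s e y).2⟩

omit h in
variable (D) in
/-- the weights on the cylinder -/
def wZ (x z : Y × ℝ) : ℝ := Real.exp (-(dW Unit κ * (sa (D.nk.τ z - D.nk.τ x) + 0)))

theorem wZ_ok : ∃ S > 0, ∃ v, Wts D.Z S (wZ D) ∧ (∀ x z, wZ D x z ≤ 1) ∧
    (∀ x, LB D.Z.μ (wZ D x) v) ∧ ∀ x z, Real.exp (-(√(1 + (z.2 - x.2) ^ 2) / 4)) ≤ wZ D x z := by
  obtain ⟨C, hC⟩ := Cpt31.tame_Z h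
  have d := dW_pos (A := Unit) (κ := κ)
  have wc : ∀ x, Wc D.Z (dW Unit κ * cW Unit κ) (wZ D x) := fun x =>
    (((lb_τ D.nk h.ok.G.vol h.ok.G.vol).comp (c2_sa.shift _)).mono (le_mul_of_one_le_left
      (by positivity) (Nat.one_le_cast.2 Fintype.card_pos))).exp d.le 0
  have m : ∀ x z, wZ D x z ≤ maj D.nk (dW Unit κ) (D.nk.τ x) (D.nk.tm z) := fun x z => by
    simpa only [wZ, add_zero] using (le_add_of_nonneg_right (Real.exp_pos _).le).trans
      (le_maj D.nk d.le (x := z) trivial (D.nk.τ x))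
  have := D.F.fin
  have f : D.F.μ univ * (ENNReal.ofReal (Real.exp (2 * dW Unit κ)) * (3 * eI (dW Unit κ))) ≠ ⊤ :=
    ENNReal.mul_ne_top (measure_ne_top _ _) (ENNReal.mul_ne_top ENNReal.ofReal_ne_top
      (ENNReal.mul_ne_top (by simp) (eI_lt d).ne))
  refine ⟨max 1 (C 0), by positivity, (D.F.μ univ * (ENNReal.ofReal (Real.exp (2 * dW Unit κ)) *
    (3 * eI (dW Unit κ)))).toReal, ⟨Mp86.bumps_of_tame _ hC, (Mp86.l4_of_tame hC).mono
    (le_max_right _ _), by positivity, fun x => (wc x).wt (mul_nonneg d.le cW_nonneg) (by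
      simpa using dW_le (A := Unit) (κ := κ) (s := 1) (le_add_of_nonneg_left (Nat.cast_nonneg _)))
      (squeeze_zero (fun _ => (Real.exp_pos _).le) (m x) ((tend_maj D.nk d _).comp
        (hasBasis_cocompact.tendsto_right_iff.2 fun K hK => mem_of_superset
          (isCompact_univ.prod hK).compl_mem_cocompact fun _ hx e => hx ⟨trivial, e⟩))),
    fun x => by simp [wZ, sa]⟩, fun x z => Real.exp_le_one_iff.2 (neg_nonpos.2
      (mul_nonneg d.le (add_nonneg (sa_nonneg _) le_rfl))), fun x => ?_, fun x z => ?_⟩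
  · have k := (lintegral_mono fun z => ENNReal.ofReal_le_ofReal (m x z)).trans
      ((setLIntegral_univ _).ge.trans (lint_maj D.nk (dW Unit κ) (D.nk.τ x)))
    have p : 0 ≤ᵐ[D.Z.μ] wZ D x := .of_forall fun _ => (Real.exp_pos _).le
    have a := (wc x).sm.continuous.aestronglyMeasurable (μ := D.Z.μ)
    exact ⟨⟨a, (hasFiniteIntegral_iff_ofReal p).2 (k.trans_lt f.lt_top)⟩,
      (integral_eq_lintegral_of_nonneg_ae p a).trans_le (ENNReal.toReal_mono f k)⟩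
  · refine Real.exp_le_exp.2 (neg_le_neg ?_)
    rw [Nka63.nk_τ, add_zero]
    linarith [mul_le_mul_of_nonneg_right (dW_quarter (κ := κ) ()) (sa_nonneg (z.2 - x.2)),
      show sa (z.2 - x.2) = √(1 + (z.2 - x.2) ^ 2) - 1 from rfl]

/-- the perturbation is in the class `Bd`, uniformly -/
theorem bd_pt (hN : N.OK D) (r m : ℕ) {S : ℝ} (S0 : 0 < S) (l4 : Mp86.L4 D.G.F.toPre S) :
    ∃ sz : YW I3 Y → ℝ, ∃ K, ∀ q w, Nd18.Sml sz q →
      (N.pt D.nk q : Pt _ _ _ r m).Bd D.B D.G w K 0 K := by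
  obtain ⟨K, hK⟩ := Mp86.b0_q1 (r := r) (m := m) h.ok hN S0
  choose k hk using fun T : YW I3 Y => Mp86.b0_q2 (r := r) (m := m) (S := S) h.ok hN T.2
  have a : Mp86.B0 D.B D.G (N.q1 D.nk : Pt _ _ _ r m) K :=
    hK ⟨D.nk, h.ok.B, h.ok.G, Cpt31.tame_Z h, l4⟩
  have b : ∀ T : YW I3 Y, Mp86.B0 D.B D.G (N.q2 D.nk T.1 : Pt _ _ _ r m) (k T) := fun T =>
    hk T ⟨D.nk, h.ok.B, h.ok.G, Cpt31.tame_Z h, l4⟩
  exact ⟨fun T => max 1 (k T), _, fun q w hq => Mp86.bd_mono (Mp86.bd_add (a.bd w)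
    (bd_fsum (b := fun T => max 1 (k T)) (fun _ => le_max_left _ _) zero_le_one le_rfl zero_le_one
      (le_of_lt hq) (fun T => (le_max_right _ _).trans
        ((le_self_pow₀ (le_max_left _ _) two_ne_zero).trans_eq (one_mul _).symm))
      (fun _ => (zero_mul _).ge) (fun T => (le_max_right _ _).trans_eq (one_mul _).symm)
      fun T => (b T).bd w)) le_rfl (by norm_num) le_rfl⟩

/-- **APT**, for bounded solutions -/
theorem apt' (hN : N.OK D) (r m : ℕ) : ∃ sz : YW I3 Y → ℝ, ∃ S, ∀ E, ∃ C, ∀ q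
    (c : Cfg (Y × ℝ) (Option κ) lam r), Nd18.Sml sz q → c.Sol D.B D.G (N.pt D.nk q : Pt _ _ _ r m) →
      Lh c D.B D.G → LB D.Z.μ (en D.Z c Prod.snd) E →
        AG D.B D.G c (wZ D) S C ∧ AN D.nk c (wZ D) C := by
  classical
  obtain ⟨S, S0, v, ws : Wts D.G.F S (wZ D), w1, wi : ∀ x, LB D.G.F.μ (wZ D x) v, wl⟩ := wZ_ok h
  obtain ⟨a, a0, ha⟩ := Cpt31.pscal h
  obtain ⟨T, hT : D.G.F.Tame T⟩ := Cpt31.tame_Z h
  obtain ⟨sz, K, hK⟩ := bd_pt h hN r m S0 ws.l4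
  have P : Dgr80.PN D.B D.G Prod.snd none univ := by
    simpa only [Nka63.nk_τ, Nka63.nk_O] using Nka63.pn D.nk h.ok h.ok.B h.ok.G le_rfl
  refine ⟨sz, S, fun E => ⟨kA K (max (Mp86.kB √(42 * v) √(32 * E) a K K) E) a 0,
    fun q c hq hs H (hE : LB D.G.F.μ (en D.G.F c Prod.snd) E) => ?_⟩⟩
  have b := hK q (wZ D) hq
  obtain ⟨_, l0⟩ := lh_le H ws w1 wi
  have E0 := hE.nonneg (Dgr80.en_nonneg _ _ _)
  have e : Mp86.Eb c D.B D.G.F (wZ D) univ √(42 * v) √(32 * E) := fun γ g h1 h3 h4 h2 x => by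
    obtain ⟨b1, b2, b3⟩ := wt_lb (ws.wt x) (w1 x) (wi x)
    have v0 := (wi x).nonneg fun _ => (Real.exp_pos _).le
    refine (lb_wt h.ok.B h.ok.G (Dgr80.exists_cut (Sob92.Exh.of_tame hT)) hs.toAdm (by linarith)
      (sq_nonneg γ) h3 (hE.mul (c := 32) (by norm_num)) (fun _ => mul_nonneg (by norm_num)
        (Dgr80.en_nonneg _ _ _ _)) (fun x => h4 x trivial) (fun z => pn_F P hs.toAdm trivial)
      (ws.wt x).sm b1 b2 b3).2.trans ?_
    rw [add_sq, mul_pow, Real.sq_sqrt (by positivity), Real.sq_sqrt (by positivity)]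
    linarith [mul_le_mul_of_nonneg_right (le_self_pow₀ h1 two_ne_zero) v0,
      (by positivity : 0 ≤ 2 * (√(42 * v) * γ) * √(32 * E))]
  have l := (Mp86.solOn_of_sol hs).le ws.bp h.ok.B h.ok.G b (Real.sqrt_nonneg _)
    (Real.sqrt_nonneg _) e (by norm_num) a0 ha l0
  refine ⟨ag' H hs (Mp86.bd_mono b le_rfl zero_le_one le_rfl) (Mp86.le_mono l (le_max_left _ _))
    a0 ha S0 ws, ?_, fun x _ z _ => wl x z⟩
  simpa only [Nka63.nk_cut, Nka63.nk_τ, one_mul] using hE.le ((le_max_right _ _).trans le_kA)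

/-- **APT** -/
theorem apt (hN : N.OK D) : ∃ sz : YW I3 Y → ℝ, ∃ S, ∀ E, ∃ C, ∀ q c β β' ζ ζ', Nd18.Sml sz q →
    N.Crit D β → N.Crit D β' → N.Traj D q c β β' ζ ζ' → LB D.Z.μ (en D.Z c Prod.snd) E →
      AG D.B D.G c (wZ D) S C ∧ AN D.nk c (wZ D) C :=
  let ⟨sz, S, k⟩ := apt' h hN 0 0
  ⟨sz, S, fun E => (k E).imp fun _ k q c _ _ _ _ hq a b t => k q c hq t.sol
    (lh_lim h ⟨a.sol.toAdm, a.tmp⟩ ⟨b.sol.toAdm, b.tmp⟩ t.sol.toAdm t.bot t.top)⟩

end Crest.Agent.X212.Fin37
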