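import Crest.Agent.X212.Fin37.Cac

/-!
# Row 212, FIN (helper37): the joint bound for the spinor and the energy on a manifold with necks
-/

set_option autoImplicit false
set_option linter.unusedSectionVars false
noncomputable section
open scoped Manifold ContDiff Topology InnerProductSpace
open MeasureTheory Set Function Filter

namespace Crest.Agent.X212.Fin37
open An Wz78 Dgr80 Sob92
open Mp86 (Dom Wts Wt Eb kB)

variable {E : Type} [NormedAddCommGroup E] [NormedSpace ℝ E] [FiniteDimensional ℝ E]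
  [MeasurableSpace E] [BorelSpace E]
  {HM : Type} [TopologicalSpace HM] {I : ModelWithCorners ℝ E HM} [I.Boundaryless]
  {M : Type} [TopologicalSpace M] [ChartedSpace HM M] [IsManifold I ∞ M]
  [MeasurableSpace M] [T2Space M] [BorelSpace M] {ι : Type} [Fintype ι] [DecidableEq ι]
  {lam : Type} [Fintype lam] {r n : ℕ} {B : Base M ι lam} {G : Geo I M ι lam}
  {c : Cfg M ι lam r} {J : Type} [Fintype J] {τ θ : J → M → ℝ} {φ : M → ℝ}
  {v m k C V γ e S K ε R a σ : ℝ} {g : M → ℝ} {w : M → M → ℝ} {p : Pt M ι lam r n}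

theorem cont_kd (hB : B.OK I) (hG : G.OK B) (h : c.Adm B G) :
    Continuous (c.m.kd B G.F c.W) := by
  have f := (Mp86.sm_Fg hB hG h.ok h.conn).continuous
  refine continuous_const.mul ?_
  simp only [PiLp.inner_apply, idx_apply, ContinuousLinearMap.id_apply]
  have f' : ∀ s, Continuous fun x => c.m.Fg G.F c.W x s := fun s =>
    (PiLp.proj 2 (fun _ : ι × ι => c.m.A) s : CL _ _).continuous.comp f
  exact continuous_finsetSum _ fun s _ => (f' s).inner (continuous_finsetSum _ fun t _ =>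
    ((hB.so _ _ _ _).continuous.div_const 2).smul (f' t))

theorem cont_p2 (hB : B.OK I) (hG : G.OK B) (h : c.Adm B G) :
    Continuous fun x => ‖c.m.p2 B x (c.m.Fg G.F c.W x)‖ ^ 2 :=
  ((((Mp86.sm_Fg hB hG h.ok h.conn).continuous.norm.pow 2).sub
    ((continuous_const (y := 128 * Real.pi ^ 2)).mul (cont_kd hB hG h))).div_const 2).congr fun x => by
      simp only [Pi.sub_apply, Pi.pow_apply, Pi.mul_apply, norm_Fg_sq hG h.conn hB]; ring

variable (B G τ θ φ v) in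
/-- cut-off functions of the necks and of the core -/
structure Cuts : Prop where
  hB : B.OK I
  hG : G.OK B
  ex : ∃ χ K, Cut G.F χ K
  ct : ∀ j, Continuous (θ j)
  nn : ∀ j x, 0 ≤ θ j x
  le : ∀ x, ∑ j, θ j x ≤ 1
  pn : ∀ j, ∃ a₀ O, PN B G (τ j) a₀ O ∧ ∀ x ∉ O, θ j x = 0
  ts : Ts I univ φ
  ge : ∀ x, 1 - ∑ j, θ j x ≤ φ x ^ 2
  l0 : LB G.F.μ (fun x => φ x ^ 2) v
  l1 : LB G.F.μ (fun x => ∑ i, G.F.D i φ x ^ 2) v

variable (G τ θ c) in
/-- the curvature on the core and the energy on the necks -/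
def fE (x : M) : ℝ :=
  (1 - ∑ j, θ j x) * ‖c.m.Fg G.F c.W x‖ ^ 2 + 32 * ∑ j, θ j x * en G.F c (τ j) x

namespace Cuts
variable (u : Cuts B G τ θ φ v)
include u

theorem en_le (j : J) (x : M) : 0 ≤ θ j x * en G.F c (τ j) x ∧
    θ j x * en G.F c (τ j) x ≤ fE G c τ θ x := by
  have p := fun j => mul_nonneg (u.nn j x) (en_nonneg G.F c (τ j) x)
  have := Finset.single_le_sum (fun j _ => p j) (Finset.mem_univ j)
  have := mul_nonneg (sub_nonneg.2 (u.le x)) (sq_nonneg ‖c.m.Fg G.F c.W x‖)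
  exact ⟨p j, by unfold fE; linarith [p j]⟩

theorem fE_nonneg (x : M) : 0 ≤ fE G c τ θ x :=
  add_nonneg (mul_nonneg (sub_nonneg.2 (u.le x)) (sq_nonneg _)) (mul_nonneg (by norm_num)
    (Finset.sum_nonneg fun j _ => (u.en_le j x).1))

theorem F_le (h : c.Adm B G) (x : M) :
    ‖c.m.Fg G.F c.W x‖ ^ 2 ≤ 6 * ‖c.m.p2 B x (c.m.Fg G.F c.W x)‖ ^ 2 + fE G c τ θ x := by
  have h1 : ∑ j, θ j x * ‖c.m.Fg G.F c.W x‖ ^ 2 ≤ ∑ j, θ j x *
      (6 * ‖c.m.p2 B x (c.m.Fg G.F c.W x)‖ ^ 2 + 32 * en G.F c (τ j) x) :=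
    Finset.sum_le_sum fun j _ => by
      obtain ⟨a₀, O, P, hO⟩ := u.pn j
      by_cases hx : x ∈ O
      · exact mul_le_mul_of_nonneg_left (pn_F P h hx) (u.nn j x)
      · simp [hO x hx]
  simp only [mul_add, Finset.sum_add_distrib, ← Finset.sum_mul, mul_left_comm (θ _ x) 32,
    ← Finset.mul_sum] at h1
  unfold fE
  linarith [mul_le_mul_of_nonneg_right (u.le x) (sq_nonneg ‖c.m.p2 B x (c.m.Fg G.F c.W x)‖)]

theorem lb_fE (h : c.Adm B G) (ik : Integrable (c.m.kd B G.F c.W) G.F.μ)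
    (ie : ∀ j, Integrable (fun x => θ j x * en G.F c (τ j) x) G.F.μ)
    (hE : ∀ j, ∫ x, θ j x * en G.F c (τ j) x ∂G.F.μ ≤
      16 * Real.pi ^ 2 * ∫ x, θ j x * c.m.kd B G.F c.W x ∂G.F.μ + e)
    (hγ : 1 ≤ γ) (hg : Dom G.F γ g) (hP : ∀ x, ‖c.m.p2 B x (c.m.Fg G.F c.W x)‖ ^ 2 ≤ γ ^ 2 + g x) :
    LB G.F.μ (fE G c τ θ)
      (40 * v * γ ^ 2 + 512 * Real.pi ^ 2 * c.kap B G + 32 * (Fintype.card J * e)) := by
  have v0 := u.l0.nonneg fun _ => sq_nonneg _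
  refine (lb_book (p := 16 * Real.pi ^ 2) (fun x => by rw [norm_Fg_sq u.hG h.conn u.hB]; ring)
    (fun _ => sq_nonneg _) (fun _ => sq_nonneg _)
    ((Mp86.sm_Fg u.hB u.hG h.ok h.conn).continuous.norm.pow 2).aestronglyMeasurable
    (fun j => (u.ct j).aestronglyMeasurable) u.le u.ge (fun j x => (u.en_le j x).1)
    (dom_cacc hg (by linarith) (cont_p2 u.hB u.hG h) hP (fun _ => sq_nonneg _) (sq_nonneg _) u.ts
      u.l0 u.l1) ik ie (fun j => ik.bdd_mul (c := 1) (u.ct j).aestronglyMeasurable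
        (.of_forall fun x => (Real.norm_of_nonneg (u.nn j x)).trans_le
          ((Finset.single_le_sum (fun j _ => u.nn j x) (Finset.mem_univ j)).trans (u.le x)))) hE).le ?_
  have : γ ≤ γ ^ 2 := le_self_pow₀ hγ two_ne_zero
  change _ ≤ _ + _ * ∫ x, c.m.kd B G.F c.W x ∂G.F.μ + _
  linarith [mul_le_mul_of_nonneg_left this v0]

end Cuts

/-- weighted bounds -/
theorem lb_wt (hB : B.OK I) (hG : G.OK B) (hc : ∃ χ K, Cut G.F χ K) (h : c.Adm B G)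
    {f ϖ : M → ℝ} {β : ℝ} (hβ : 0 < β) (C0 : 0 ≤ C) (hg : Dom G.F β g) (hf : LB G.F.μ f e)
    (f0 : ∀ x, 0 ≤ f x) (hP : ∀ x, ‖c.m.p2 B x (c.m.Fg G.F c.W x)‖ ^ 2 ≤ C + g x)
    (hF : ∀ x, ‖c.m.Fg G.F c.W x‖ ^ 2 ≤ 6 * ‖c.m.p2 B x (c.m.Fg G.F c.W x)‖ ^ 2 + f x)
    (ho : Sm I ϖ) (o1 : ∀ x, ϖ x ^ 2 ≤ 1) (h0 : LB G.F.μ (fun x => ϖ x ^ 2) a)
    (h1 : LB G.F.μ (fun x => ∑ i, G.F.D i ϖ x ^ 2) a) :
    LB G.F.μ (fun x => (ϖ x * ‖c.m.Fg G.F c.W x‖) ^ 2) ((12 * C + 30 * β) * a + e) :=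
  ((((dom_wt hc hg hβ (cont_p2 hB hG h) hP (fun _ => sq_nonneg _) C0 ho h0 h1).mul
    (by norm_num : (0 : ℝ) ≤ 6)).add hf).mono
    (g' := fun x => (ϖ x * ‖c.m.Fg G.F c.W x‖) ^ 2) ((ho.continuous.mul
      (Mp86.sm_Fg hB hG h.ok h.conn).continuous.norm).pow 2).aestronglyMeasurable
        (fun _ => sq_nonneg _) fun x => by
          linarith [mul_le_mul_of_nonneg_left (hF x) (sq_nonneg (ϖ x)),
            mul_le_mul_of_nonneg_right (o1 x) (f0 x)]).le (le_of_eq (by ring))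

theorem wt_lb {ϖ : M → ℝ} (h : Wt G.F ϖ) (h1 : ∀ x, ϖ x ≤ 1) (hv : LB G.F.μ ϖ v) :
    (∀ x, ϖ x ^ 2 ≤ 1) ∧ LB G.F.μ (fun x => ϖ x ^ 2) v ∧
      LB G.F.μ (fun x => ∑ i, G.F.D i ϖ x ^ 2) v := by
  have k := fun i => (G.F.sm_D h.sm i).continuous
  have e : ∀ x, ϖ x ^ 2 ≤ ϖ x := fun x => by nlinarith [h.pos x, h1 x]
  exact ⟨fun x => (e x).trans (h1 x), hv.mono (h.sm.continuous.pow 2).aestronglyMeasurable
    (fun _ => sq_nonneg _) e, hv.mono (Continuous.aestronglyMeasurable (by fun_prop))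
      (fun _ => by positivity) fun x => by linarith [h.gr x, e x, h.pos x]⟩

/-- the constant of the joint bound -/
def kJ (V a K R : ℝ) : ℝ := (2 * V ^ 2 + 1) * (16 * kB V 0 a K R + 2 * R) ^ 2

/-- **joint bound for the spinor and the energy** -/
theorem Cuts.apr (u : Cuts B G τ θ φ v) (hw : Wts G.F S w) (w1 : ∀ x y, w x y ≤ 1)
    (wi : ∀ x, LB G.F.μ (w x) v) (h : c.Sol B G p) (hp : p.Bd B G w K ε R) (a0 : 0 ≤ a)
    (ha : ∀ x, √(∑ s, fP B G x s ^ 2) - sc G x / 4 ≤ a) (ik : Integrable (c.m.kd B G.F c.W) G.F.μ)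
    (ie : ∀ j, Integrable (fun x => θ j x * en G.F c (τ j) x) G.F.μ) (k0 : 0 ≤ k)
    (hk : c.kap B G ≤ k) (C0 : 0 ≤ C) (hm : Fintype.card J * C ≤ m)
    (hE : ∀ σ γ, c.Le G.F w σ → 1 ≤ γ → (∀ x, ‖c.Φ x‖ ^ 2 ≤ γ) → ∀ j,
      ∫ x, θ j x * en G.F c (τ j) x ∂G.F.μ ≤ 16 * Real.pi ^ 2 *
        ∫ x, θ j x * c.m.kd B G.F c.W x ∂G.F.μ + C * (3 * γ ^ 2 + (ε * σ) ^ 2))
    (V0 : 0 ≤ V) (hV : 82 * v + 96 * m + 512 * Real.pi ^ 2 * k ≤ V ^ 2)
    (hε : 320 * (V + 1) * ε ≤ 1) (hσ : c.Le G.F w σ) :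
    c.Le G.F w (kJ V a K R) ∧ |c.kap B G| ≤ kJ V a K R ∧ LB G.F.μ (fE G c τ θ) (kJ V a K R) ∧
      ∃ g, Dom G.F (kJ V a K R) g ∧
        ∀ x, ‖c.m.p2 B x (c.m.Fg G.F c.W x)‖ ^ 2 ≤ kJ V a K R + g x := by
  have v0 := u.l0.nonneg fun _ => sq_nonneg _
  have m0 : 0 ≤ m := le_trans (by positivity) hm
  have e0 := hp.e0
  have R0 := hp.R0
  have p1 : 1 ≤ Real.pi ^ 2 := by nlinarith [Real.pi_gt_three]
  have e1 : 2048 * m * ε ^ 2 ≤ 1 := by
    have : V * ε ≤ 1 / 320 := by linarith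
    have := pow_le_pow_left₀ (by positivity) this 2
    linarith [mul_le_mul_of_nonneg_right hV (sq_nonneg ε), mul_nonneg v0 (sq_nonneg ε),
      (by positivity : 0 ≤ Real.pi ^ 2 * k * ε ^ 2)]
  have key : ∀ σ γ g, c.Le G.F w σ → 1 ≤ γ → (∀ x, ‖c.Φ x‖ ^ 2 ≤ γ) → Dom G.F γ g →
      (∀ x, ‖c.m.p2 B x (c.m.Fg G.F c.W x)‖ ^ 2 ≤ γ ^ 2 + g x) → LB G.F.μ (fE G c τ θ)
        ((40 * v + 96 * m) * γ ^ 2 + 512 * Real.pi ^ 2 * c.kap B G + (σ / 8) ^ 2) :=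
    fun σ γ g l h1 h2 h3 h4 => (u.lb_fE h.toAdm ik ie (hE σ γ l h1 h2) h1 h3 h4).le (by
      linarith [mul_le_mul_of_nonneg_right hm (by positivity : 0 ≤ 3 * γ ^ 2 + (ε * σ) ^ 2),
        mul_le_mul_of_nonneg_right e1 (sq_nonneg σ)])
  have S := Mp86.solOn_of_sol h
  have l := Mp86.le_limit (C := kB V 0 a K R) hσ fun σ l => by
    have s0 := l.one
    refine Mp86.le_mono (S.le hw.bp u.hB u.hG hp V0 (by positivity : 0 ≤ σ / 8)
      (fun γ g h1 h3 h4 h2 x => ?_) hε a0 ha l) (by unfold kB; linarith)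
    obtain ⟨b1, b2, b3⟩ := wt_lb (hw.wt x) (w1 x) (wi x)
    refine (lb_wt u.hB u.hG u.ex h.toAdm (by linarith) (sq_nonneg γ) h3 (key σ γ g l h1 h2 h3
      fun x => h4 x trivial) u.fE_nonneg (fun x => h4 x trivial) (u.F_le h.toAdm) (hw.wt x).sm b1 b2
        b3).2.trans ?_
    have g1 : γ ≤ γ ^ 2 := le_self_pow₀ h1 two_ne_zero
    have g2 := h1.trans g1
    linarith [mul_le_mul_of_nonneg_right g1 v0, mul_le_mul_of_nonneg_right hV (sq_nonneg γ),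
      mul_le_mul_of_nonneg_left hk (by positivity : 0 ≤ Real.pi ^ 2),
      mul_le_mul_of_nonneg_left g2 (by positivity : 0 ≤ Real.pi ^ 2 * k),
      (by positivity : 0 ≤ V * γ * σ)]
  unfold kJ
  generalize kB V 0 a K R = s at l
  have s1 := l.one
  obtain ⟨g, h1, h2⟩ := hp.C c _ h.toAdm l
  have e2 : ε * (2 * s) ≤ 2 * s := mul_le_of_le_one_left (by linarith)
    (by linarith [mul_nonneg V0 e0])
  have e3 : 0 ≤ ε * (2 * s) := by positivity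
  have g0 : 1 ≤ 16 * s + 2 * R := by linarith
  have d := (h1.mul zero_le_two).mono (β' := 16 * s + 2 * R) (by linarith) fun _ => le_rfl
  have hP : ∀ x, ‖c.m.p2 B x (c.m.Fg G.F c.W x)‖ ^ 2 ≤ (16 * s + 2 * R) ^ 2 + 2 * g x := fun x => by
    linarith [S.norm_p2_sq u.hB (mem_univ x), h2 x, pow_le_pow_left₀ (sq_nonneg _) (l.Φ x) 2,
      sq_nonneg s, sq_nonneg R,
      pow_le_pow_left₀ (by positivity) (by linarith : ε * (2 * s) + R ≤ 2 * s + R) 2,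
      mul_nonneg R0 (by linarith : 0 ≤ s)]
  have b := key _ _ _ l g0 (fun x => by linarith [l.Φ x]) d hP
  have b0 := b.nonneg u.fE_nonneg
  have s2 : (2 * s / 8) ^ 2 ≤ (16 * s + 2 * R) ^ 2 := pow_le_pow_left₀ (by linarith) (by linarith) 2
  have s3 : 2 * s ≤ 16 * s + 2 * R := by linarith
  generalize 16 * s + 2 * R = γ at *
  have g1 : γ ≤ γ ^ 2 := le_self_pow₀ g0 two_ne_zero
  have g2 := g0.trans g1
  have q0 : 0 ≤ V ^ 2 * γ ^ 2 := by positivity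
  have q1 := mul_le_mul_of_nonneg_right hV (sq_nonneg γ)
  have q2 := mul_le_mul_of_nonneg_left g2 (by positivity : 0 ≤ Real.pi ^ 2 * k)
  have q3 := mul_le_mul_of_nonneg_left hk (by positivity : 0 ≤ Real.pi ^ 2)
  have q4 : 0 ≤ v * γ ^ 2 := by positivity
  have q5 : 0 ≤ m * γ ^ 2 := by positivity
  have q6 := mul_le_mul_of_nonneg_right p1 k0
  refine ⟨Mp86.le_mono l (by linarith), abs_le.2 ⟨?_, by linarith⟩, b.le (by linarith), _,
    d.mono (by linarith) fun _ => le_rfl, fun x => (hP x).trans (by linarith)⟩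
  rcases le_total 0 (c.kap B G) with z | z
  · linarith
  · linarith [mul_le_mul_of_nonpos_right p1 z, (by positivity : 0 ≤ Real.pi ^ 2 * k * γ ^ 2)]

end Crest.Agent.X212.Fin37
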