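import Crest.Agent.X212.Fin37.Cvx
import Crest.Agent.X212.Fin37.Gen
import Crest.Agent.X212.Eqv71.Nk1
import Crest.Agent.X212.Std94.Smo
import Crest.Agent.X212.Dgr80.Cf

/-!
# Row 212, FIN (helper37): field terms are small in `L²`; bounded representatives; invariance
-/

set_option autoImplicit false
set_option linter.unusedSectionVars false
noncomputable section
open scoped Manifold ContDiff Topology InnerProductSpace
open MeasureTheory Set Function Filter

namespace Crest.Agent.X212.Fin37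
open An Wz78 Dgr80 Sob92 Nd18
open Mp86 (Wts TmSz kC qd)
open Wrd81 (wd)

section meas
variable {X V W : Type*} [MeasurableSpace X] {μ : Measure X} [NormedAddCommGroup V]
  [NormedSpace ℝ V]

theorem lb_ind {L : Set X} (hL : MeasurableSet L) (h : μ L ≠ ⊤) :
    LB μ (L.indicator fun _ => 1) (μ.real L) :=
  ⟨(integrable_indicator_iff hL).2 (integrableOn_const h), by simp [hL]⟩

theorem lb_supp {L : Set X} (hL : MeasurableSet L) (h : μ L ≠ ⊤) {f : X → ℝ} {C k : ℝ}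
    (hk : μ.real L ≤ k) (hf : AEStronglyMeasurable f μ) (f0 : ∀ x, 0 ≤ f x) (C0 : 0 ≤ C)
    (hC : ∀ x, f x ≤ C) (h0 : ∀ x ∉ L, f x = 0) : LB μ f (C * k) :=
  (((lb_ind hL h).le hk).mul C0).mono hf f0 fun x => by
    by_cases hx : x ∈ L
    · simpa [hx] using hC x
    · simp [hx, h0 x hx]

theorem lb_cvx (s : Finset W) {a b β : W → ℝ} {K : ℝ} {u : W → X → V} (hb : ∀ w, 0 < b w)
    (hK : 0 ≤ K) (h : ∑ w ∈ s, |a w| * b w ≤ 1) (hm : ∀ w, AEStronglyMeasurable (u w) μ)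
    (hu : ∀ w, LB μ (fun x => ‖u w x‖ ^ 2) (β w)) (hβ : ∀ w, β w ≤ K * b w ^ 2) :
    LB μ (fun x => ‖∑ w ∈ s, a w • u w x‖ ^ 2) K :=
  ((LB.sum s fun w _ => (hu w).mul (div_nonneg (abs_nonneg (a w)) (hb w).le)).mono
    (g' := fun x => ‖∑ w ∈ s, a w • u w x‖ ^ 2)
    ((Finset.aestronglyMeasurable_fun_sum s fun w _ => (hm w).const_smul (a w)).norm.pow 2)
    (fun _ => sq_nonneg _) fun _ => jensen s hb h _).le (cvx_le s hb hK h fun w _ => hβ w)

end meas

variable {E : Type} [NormedAddCommGroup E] [NormedSpace ℝ E] [FiniteDimensional ℝ E]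
  [MeasurableSpace E] [BorelSpace E]
  {HM : Type} [TopologicalSpace HM] {I : ModelWithCorners ℝ E HM} [I.Boundaryless]
  {M : Type} [TopologicalSpace M] [ChartedSpace HM M] [IsManifold I ∞ M]
  [MeasurableSpace M] [T2Space M] [BorelSpace M] [SecondCountableTopology M] {ι : Type} [Fintype ι]
  {lam : Type} [Fintype lam] {r n : ℕ} {B : Base M ι lam} {G : Geo I M ι lam}
  {c c' : Cfg M ι lam r} {w : M → M → ℝ} {S σ γ ε v : ℝ}

section sm
variable (hB : B.OK I) (h : c.Adm B G)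
include h

theorem sm_sw : ∀ {u : SW M}, SW.OK G.F u → Sm I (c.sw G.F u)
  | [], _ => h.sm
  | t :: u, hw => by
    have ih : Sm I (c.sw G.F u) := sm_sw fun t ht => hw t (List.mem_cons_of_mem _ ht)
    have h0 := hw t List.mem_cons_self
    cases t with
    | mul f => exact fun x => SA.smul (h0.choose_spec.1 x) (ih x)
    | cl g =>
      exact contMDiff_finsetSum fun a _ x =>
        SA.smul (G.F.sm_D h0.1 a x) ((h.ok.sρ a).clm_apply ih x)
    | im => exact c.m.J.contMDiff.comp ih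
    | G => exact Mp86.sm_res _ _ _

omit h in
theorem sm_las {s : M → c.m.A} (hs : Sm I s) : ∀ {l : List (La M)}, (∀ t ∈ l, La.OK G.F t) →
    Sm I (wd (c.la G.F) s l)
  | [], _ => hs
  | t :: l, hw => by
    have ih := sm_las hs fun t ht => hw t (List.mem_cons_of_mem _ ht)
    have h0 := hw t List.mem_cons_self
    cases t with
    | mul f => exact fun x => SA.smul (h0.choose_spec.1 x) (ih x)
    | G => exact Mp86.sm_res _ _ _

include hB

theorem sm_aw {ξ : AW M} (hξ : ξ.OK G.F) : Sm I (c.aw G.F ξ) := by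
  obtain ⟨s, l⟩ := ξ
  refine sm_las ?_ hξ.2
  cases s with
  | q u v => exact fun x => sa_q (Std94.sm_pg hB h.ok) (sm_sw h hξ.1.1 x) (sm_sw h hξ.1.2 x)
  | cv f g k => exact Mp86.sm_res _ _ _

theorem sm_aws : ∀ {L : List (AW M)}, (∀ ξ ∈ L, AW.OK G.F ξ) → Sm I (c.aws G.F L)
  | [], _ => contMDiff_const
  | _ :: _, hL => (sm_aw hB h (hL _ List.mem_cons_self)).add
      (sm_aws fun t ht => hL t (List.mem_cons_of_mem _ ht))

theorem cont_tC {T : Tm M lam r n} (hT : T.OK G.F) : Continuous (c.tC B G.F T) := by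
  have p := (Std94.sm_p2 hB h.ok).continuous
  have d := fun {g : M → ℝ} (hg : G.F.Cd g) a => (G.F.sm_D hg.1 a).continuous
  cases T with
  | ad g k ξ => exact p.clm_apply ((PiLp.continuous_toLp _ _).comp (continuous_pi fun s =>
      ((d hT.1 _).mul (d hT.2.1 _)).smul (sm_aw hB h hT.2.2).continuous))
  | adj e s g k u v l =>
    obtain ⟨-, h2, h3, h4, h5, h6, h7⟩ := hT
    exact p.clm_apply ((PiLp.continuous_toLp _ _).comp (continuous_pi fun s =>
      ((d h3 _).mul (d h4 _)).smul (sm_las (fun x => sa_q (Std94.sm_pg hB h.ok)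
        (SA.clm (Eqv71.csL c.m.J _) (SA.app (SA.app (h.ok.sj x) (h2.choose_spec.1 x)) (sm_sw h h5 x)))
        (sm_sw h h6 x)) h7).continuous))
  | adn f g k φ L =>
    obtain ⟨h1, h2, h3, h4, -, h6⟩ := hT
    have a := (sm_aws hB h h6).continuous
    exact p.clm_apply ((PiLp.continuous_toLp _ _).comp (continuous_pi fun s =>
      (((h1.choose_spec.1.continuous.mul (d h2 _)).mul (d h3 _)).mul
        (h4.continuous.comp (a.norm.pow 2))).smul a))
  | _ => exact continuous_const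

end sm

variable (B G) in
/-- a field term of size `k` -/
structure Tk (T : Tm M lam r n) (k : ℕ) : Prop where
  ok : T.OK G.F
  sz : TmSz G k T
  sup : ∃ L, IsCompact L ∧ G.F.μ.real L ≤ k ∧
    ∀ x : Cfg M ι lam r, ∀ z ∉ L, x.tD B G.F T z = 0 ∧ x.tC B G.F T z = 0

/-- **field terms are small in `L²`** -/
theorem lb_fld {W : Type} {T : W → Tm M lam r n} {t R b : W → ℝ} {k : W → ℕ} {q : W →₀ ℝ}
    (hw : Wts G.F S w) (hB : B.OK I) (k1 : ∀ i, 1 ≤ k i) (hT : ∀ i, t i ≠ 0 → Tk B G (T i) (k i))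
    (ht : ∀ i, |t i| ≤ R i) (hb : ∀ i, 0 < b i) (hq : (q.sum fun i a => |a| * b i) ≤ 1)
    (hD : ∀ i, R i ^ 2 * (64 * k i * (4 * k i) ^ k i) * k i ≤ b i ^ 2)
    (hC : ∀ i, (2 * R i * kC (k i) S) ^ 2 * k i ≤ (ε * b i) ^ 2) (h : c.Adm B G)
    (l : c.Le G.F w σ) (γ0 : 0 ≤ γ) (hγ : ∀ x, ‖c.Φ x‖ ^ 2 ≤ γ) :
    LB G.F.μ (fun x => ‖(fsum (fun i => (tmP B G.F (T i)).smul (t i)) q).D c x‖ ^ 2 +
      ‖(fsum (fun i => (tmP B G.F (T i)).smul (t i)) q).C c x‖ ^ 2) (γ + (ε * σ) ^ 2) := by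
  have s1 := l.one
  have e : ∀ i, t i ^ 2 ≤ R i ^ 2 := fun i => sq_le_sq' (neg_le_of_abs_le (ht i)) (le_of_abs_le (ht i))
  have R0 := fun i => (abs_nonneg _).trans (ht i)
  have cD : ∀ i, Continuous fun x => t i • c.tD B G.F (T i) x := fun i => by
    rcases eq_or_ne (t i) 0 with z | z
    · simpa [z] using continuous_const
    · exact (Mp86.ctl_tD hw.bp hB h (k1 i) hγ γ0 (hT i z).sz).sm.continuous.const_smul (t i)
  have cC : ∀ i, Continuous fun x => t i • c.tC B G.F (T i) x := fun i => by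
    rcases eq_or_ne (t i) 0 with z | z
    · simpa [z] using continuous_const
    · exact (cont_tC hB h (hT i z).ok).const_smul (t i)
  refine (lb_cvx (u := fun i x => t i • c.tD B G.F (T i) x) _ hb γ0 hq
    (fun i => (cD i).aestronglyMeasurable) (fun i => ?_)
    (β := fun i => R i ^ 2 * (64 * k i * (4 * k i) ^ k i * γ) * k i) fun i => by
      linarith [mul_le_mul_of_nonneg_left (hD i) γ0]).add
    (lb_cvx (u := fun i x => t i • c.tC B G.F (T i) x) _ hb (sq_nonneg _) hq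
      (fun i => (cC i).aestronglyMeasurable) (fun i => ?_)
      (β := fun i => (2 * R i * kC (k i) S * σ) ^ 2 * k i) fun i => by
        linarith [mul_le_mul_of_nonneg_left (hC i) (sq_nonneg σ)])
  · rcases eq_or_ne (t i) 0 with z | z
    · exact ⟨by simp [z], by simp only [z, zero_smul]; simp; positivity⟩
    · obtain ⟨L, h1, h2, h3⟩ := (hT i z).sup
      refine lb_supp h1.measurableSet h1.measure_ne_top h2 ((cD i).norm.pow 2).aestronglyMeasurable
        (fun _ => sq_nonneg _) (by positivity) (fun x => ?_) fun x hx => by simp [(h3 c x hx).1]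
      rw [norm_smul, mul_pow, Real.norm_eq_abs, sq_abs]
      exact mul_le_mul (e i) ((Mp86.ctl_tD hw.bp hB h (k1 i) hγ γ0 (hT i z).sz).le x) (sq_nonneg _)
        (sq_nonneg _)
  · rcases eq_or_ne (t i) 0 with z | z
    · exact ⟨by simp [z], by simp only [z, zero_smul]; simp; positivity⟩
    · obtain ⟨L, h1, h2, h3⟩ := (hT i z).sup
      refine lb_supp h1.measurableSet h1.measure_ne_top h2 ((cC i).norm.pow 2).aestronglyMeasurable
        (fun _ => sq_nonneg _) (sq_nonneg _) (fun x => pow_le_pow_left₀ (norm_nonneg _) ?_ 2)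
        fun x hx => by simp [(h3 c x hx).2]
      have k0 : 0 ≤ kC (k i) S := by unfold kC; positivity
      have q1 : qd (T i) ≤ 1 := by cases T i <;> simp [qd]
      have := (Mp86.norm_tC hw hB h (k1 i) l (hT i z).sz x).trans (mul_le_mul_of_nonneg_left
        (by linarith [mul_le_mul_of_nonneg_right q1 (zero_le_one.trans s1)] : qd (T i) * σ + 1 ≤ 2 * σ) k0)
      rw [norm_smul]
      exact (mul_le_mul (ht i) this (norm_nonneg _) (R0 i)).trans (le_of_eq (by ring))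

theorem cb_Fg (h : Dgr80.Gd B G c) : ∃ C, ∀ x, ‖c.m.Fg G.F c.W x‖ ^ 2 ≤ C := by
  obtain ⟨_, t⟩ := h.tame
  have k : ∀ s : ι × ι, G.F.Cb fun x => c.m.Fg G.F c.W x s := fun s =>
    Cb_app h.pg (Cb_clm hsL (Cb_sub (Cb_add (Cb_sub (Cb_D (h.W s.2) s.1) (Cb_D (h.W s.1) s.2))
      (Cb_sub (Cb_comp (h.W s.1) (h.W s.2)) (Cb_comp (h.W s.2) (h.W s.1))))
        (Cb_sum _ fun k _ => Cb_smul ⟨_, t.c s.1 s.2 k⟩ (h.W k))))
  choose C hC using fun s => Cyc79.cb_bdd (k s)
  exact ⟨∑ s, C s ^ 2, fun x => (PiLp.norm_sq_eq_of_L2 _ _).trans_le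
    (Finset.sum_le_sum fun s _ => pow_le_pow_left₀ (norm_nonneg _) (hC s x) 2)⟩

/-- the start of the bootstrap -/
theorem gd_le (h : Dgr80.Gd B G c) (hw : Wts G.F S w) (w1 : ∀ x y, w x y ≤ 1)
    (wi : ∀ x, LB G.F.μ (w x) v) : ∃ σ, c.Le G.F w σ := by
  obtain ⟨C, hC⟩ := cb_Fg h
  obtain ⟨R, hR⟩ := Cyc79.cb_bdd h.Φ
  have k : ∀ x, LB G.F.μ (fun y => (w x y * ‖c.m.Fg G.F c.W y‖) ^ 2) (|C| * v) := fun x =>
    ((wi x).mul (abs_nonneg C)).mono (((hw.wt x).sm.continuous.mul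
      (Mp86.sm_Fg h.hB h.hG h.ok h.conn).continuous.norm).pow 2).aestronglyMeasurable
      (fun _ => sq_nonneg _) fun y => by
        have p := (hw.wt x).pos y
        have : w x y ^ 2 ≤ w x y := by nlinarith [w1 x y]
        rw [mul_pow, mul_comm]
        exact mul_le_mul ((hC y).trans (le_abs_self C)) this (sq_nonneg _) (abs_nonneg _)
  refine ⟨1 + R ^ 2 + |(|C| * v)|, by nlinarith [abs_nonneg (|C| * v)], fun x => by
    linarith [pow_le_pow_left₀ (norm_nonneg _) (hR x) 2, abs_nonneg (|C| * v)], fun x => (k x).1,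
    fun x => (k x).2.trans ?_⟩
  nlinarith [le_abs_self (|C| * v), abs_nonneg (|C| * v), sq_nonneg R,
    sq_nonneg (R ^ 2 + |(|C| * v)|)]

/-- the invariants of isomorphic configurations -/
theorem iso_inv (hB : B.OK I) (hG : G.OK B) (hT : ∃ C, G.F.Tame C) (h : c.Adm B G)
    (h' : c'.Adm B G) (e : Cfg.Iso B G.F c c') : (∀ x, ‖c'.Φ x‖ = ‖c.Φ x‖) ∧
      (∀ x, ‖c'.m.p2 B x (c'.m.Fg G.F c'.W x)‖ = ‖c.m.p2 B x (c.m.Fg G.F c.W x)‖) ∧
      c'.m.kd B G.F c'.W = c.m.kd B G.F c.W ∧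
      (∀ x, ‖c'.m.Fg G.F c'.W x‖ = ‖c.m.Fg G.F c.W x‖) ∧
      ∀ τ, Sm I τ → en G.F c' τ = en G.F c τ := by
  obtain ⟨u, ζ, e⟩ := e
  have g := Eqv71.kt_refl hB hG isClopen_univ hT
  have k := Eqv71.cr0_univ (Eqv71.ad0 h) (Eqv71.ad0 h') e
  have h1 := fun x => Eqv71.ceq_norm g.toLG k.adm k.adm' e (mem_univ x)
  have h2 := fun x => (congrArg norm (Eqv71.ceq_p2F g.toLG k.adm k.adm' e (mem_univ x))).trans
      (k.norm_p2 g.toKC (mem_univ x) _)
  have h3 := fun x => (k.lm g.toKC).kd (mem_univ x)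
  have h4 := fun τ (hτ : Sm I τ) x => k.en g.toKC (g.toLG.dr (s := 0) hτ hτ
    fun _ _ => (add_zero _).symm) (mem_univ x)
  simp only [id_eq, comp_apply] at h1 h2 h3 h4
  exact ⟨h1, h2, funext h3, fun x => (sq_eq_sq₀ (norm_nonneg _) (norm_nonneg _)).1 (by
      rw [norm_Fg_sq hG h.conn hB, norm_Fg_sq hG h'.conn hB, h2, h3]),
    fun τ hτ => funext (h4 τ hτ)⟩

end Crest.Agent.X212.Fin37
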