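import Crest.Agent.X212.Fin37.Defs
import Crest.Agent.X212.Fin37.Fld
import Crest.Agent.X212.Eqv71.Job

/-!
# Row 212, FIN (helper37): the cut-off functions and the perturbation of a job, uniformly
-/

set_option autoImplicit false
set_option linter.unusedSectionVars false
noncomputable section
open scoped Manifold ContDiff Topology InnerProductSpace
open MeasureTheory Set Function Filter

namespace Crest.Agent.X212.Fin37
open An An.Job M Nd18 Nka63
open Mp86 (L4 TmSz Wts Dom NK B0 kC)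
open Dgr80 (en LB)

theorem sum_le_one {K X : Type*} [Fintype K] {f : K → ℝ} {T : K → Set X} {x : X}
    (hd : Pairwise fun i j => Disjoint (T i) (T j)) (h0 : ∀ i, x ∉ T i → f i = 0)
    (h1 : ∀ i, f i ≤ 1) : ∑ i, f i ≤ 1 := by
  by_cases h : ∃ i, x ∈ T i
  · obtain ⟨i, hi⟩ := h
    exact (Finset.sum_eq_single i (fun j _ hj => h0 j fun k => disjoint_left.1 (hd hj) k hi)
      (by simp)).trans_le (h1 i)
  · exact (Finset.sum_eq_zero fun i _ => h0 i fun k => h ⟨i, k⟩).trans_le zero_le_one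

theorem vol_collar (p q : Option ℝ) {d : ℝ} (hd : 0 ≤ d) :
    volume (Jv p q \ Dq p q d) ≤ ENNReal.ofReal (2 * d) := by
  have e : ∀ (o : Option ℝ) (t : ℝ), volume (o.elim ∅ fun a => Icc (a + t) (a + t + d)) ≤
      ENNReal.ofReal d := fun o t => by cases o <;> simp
  rw [two_mul, ENNReal.ofReal_add hd hd]
  refine (measure_mono fun s hs => ?_).trans ((measure_union_le _ _).trans
    (add_le_add (e p 0) (e q (-d))))
  rcases not_and_or.1 (mt mem_Dq.2 hs.2) with k | k <;> push Not at k <;> obtain ⟨a, rfl, k⟩ := k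
  · exact .inl ⟨by linarith [hs.1.1 a rfl], by linarith⟩
  · exact .inr ⟨by linarith, by linarith [hs.1.2 a rfl]⟩

variable {Wi : Type} {X : Mf 4} {A κ lam : Type} [Fintype A] [Fintype κ] [Fintype lam]
  [DecidableEq lam] {M : Mark X A κ} {W : World M} {N : ML M lam}
  {Λ : Lns W N} {A' h : Type} [Fintype A'] [DecidableEq A'] [Fintype h] {r n : ℕ}
  (J : Job Wi Λ A' h r n) {c : M.Cl} {s : A' → ℝ} {d : ℝ}

instance fIx : Fintype (Ix J c s) := Fintype.ofFinite _

/-- the cut-off functions of the necks -/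
abbrev th (d : ℝ) (i : Ix J c s) (z : (W.Z c).M) : ℝ := (nk J i).cut d ((nk J i).τ z)

variable (c s) in
/-- the cut-off function of the core -/
def ph (z : (W.Z c).M) : ℝ := 1 - ∑ i : Ix J c s, th J 4 i z

theorem card_le : (Fintype.card (Ix J c s) : ℝ) ≤ Fintype.card (A × Option Bool) := by
  exact_mod_cast Fintype.card_le_of_injective _ Subtype.val_injective

theorem bd_cell {f : (A' → ℝ) → ℝ} (hf : Continuous f) : ∃ R, ∀ c s, Pm J c s → |f s| ≤ R :=
  let ⟨R, h⟩ := (isCompact_Icc (a := 0) (b := 1)).exists_bound_of_continuousOn hf.continuousOn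
  ⟨R, fun _ s ⟨_, _, k, _⟩ => h s ⟨fun a => (k.2 a).1, fun a => (k.2 a).2⟩⟩

variable {J}

theorem sum_ix_le {f : A → ℝ} (hf : ∀ a, 0 ≤ f a) :
    ∑ i : Ix J c s, f i.1.1 ≤ Fintype.card (A × Option Bool) * ∑ a, f a :=
  ((Finset.sum_le_card_nsmul _ _ _ fun i _ => Finset.single_le_sum (fun a _ => hf a)
    (Finset.mem_univ i.1.1)).trans_eq (nsmul_eq_mul _ _)).trans
    (mul_le_mul_of_nonneg_right (card_le J) (Finset.sum_nonneg fun a _ => hf a))

theorem vol_core (h0 : IsCompact (core J c s 0)) (hd : 0 ≤ d) : (J.G c s).F.μ.real (core J c s d) ≤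
    (J.G c s).F.μ.real (core J c s 0) + ∑ i : Ix J c s, vY (J.xs i.1.1).D * (2 * d) := by
  have m : ∀ i : Ix J c s, (J.G c s).F.μ ((nk J i).tm ⁻¹' ((nk J i).J \ Dq (nk J i).p (nk J i).q d)) =
      _ := fun i => measure_slab (nk J i) ((meas_J _).diff isOpen_Dq.measurableSet) sdiff_subset
  have f := fun i : Ix J c s => (vol_collar (nk J i).p (nk J i).q hd).trans_lt ENNReal.ofReal_lt_top
  refine (measureReal_mono (s₂ := core J c s 0 ∪ ⋃ i : Ix J c s,
    (nk J i).tm ⁻¹' ((nk J i).J \ Dq (nk J i).p (nk J i).q d)) (fun z hz => ?_)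
    (measure_union_ne_top h0.measure_ne_top ((measure_iUnion_fintype_le _ _).trans_lt
      (ENNReal.sum_lt_top.2 fun i _ => (m i).trans_lt
        (ENNReal.mul_lt_top (measure_lt_top _ _) (f i)))).ne)).trans ((measureReal_union_le _ _).trans
    (add_le_add_right ((measureReal_iUnion_fintype_le _).trans (Finset.sum_le_sum fun i _ => ?_)) _))
  · by_cases k : z ∈ core J c s 0
    · exact .inl k
    · obtain ⟨i, hi⟩ := not_forall.1 k
      exact .inr (mem_iUnion.2 ⟨i, Dq_zero.subset (not_not.1 hi), hz i⟩)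
  · rw [measureReal_def, m, ENNReal.toReal_mul]
    exact mul_le_mul_of_nonneg_left (ENNReal.toReal_le_of_le_ofReal (by linarith)
      (vol_collar _ _ hd)) (vY_nonneg _)

theorem th_sum (dj : DJ J) (p : Pm J c s) (hd : 1 ≤ d) (z : (W.Z c).M) :
    ∑ i : Ix J c s, th J d i z ≤ 1 :=
  sum_le_one (dj c s p) (fun i k => cut_τ_zero _ hd fun e => k (O_sub _ (by linarith) e))
    fun _ => ct_mem.2

theorem th_ge {i : Ix J c s} {z : (W.Z c).M} (hd : 0 ≤ d) (hz : z ∈ O (nk J i) (d + 1)) :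
    1 ≤ ∑ i : Ix J c s, th J d i z :=
  (cut_τ_one _ hd (O_sub_dp _ hz)).ge.trans
    (Finset.single_le_sum (f := fun i => th J d i z) (fun _ _ => ct_mem.1) (Finset.mem_univ i))

theorem sm_th (i : Ix J c s) : Sm (W.Z c).I (th J d i) := sm_time _ contDiff_ct

variable (hJ : J.OK)
include hJ

theorem Pm.ok (p : Pm J c s) : (J.G c s).OK (J.B c) ∧ ∃ C, (J.G c s).F.Tame C :=
  let ⟨_, h1, h2, h3⟩ := p
  ⟨hJ.G_ok h1 ⟨J.cl_dom h2, h3⟩, hJ.tame h1 ⟨J.cl_dom h2, h3⟩⟩

theorem Pm.cut (p : Pm J c s) : ∃ χ K, Dgr80.Cut (J.G c s).F χ K :=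
  let ⟨_, t⟩ := (p.ok hJ).2
  Dgr80.exists_cut (Sob92.Exh.of_tame t)

/-- **the cut-off functions** -/
theorem cuts [DecidableEq κ] (dj : DJ J) (cp : CPT J) (vol : VOL J) : ∀ᶠ v in atTop, ∀ c s,
    Pm J c s → Cuts (J.B c) (J.G c s) (fun i : Ix J c s => (nk J i).τ) (th J 3) (ph J c s) v := by
  obtain ⟨v, hv⟩ := vol
  choose C hC using fun a => cbs_cut_τ (J.xs a).D
  refine (eventually_ge_atTop ((1 + ∑ _a : Option κ, (Fintype.card (A × Option Bool) *
    ∑ a, |C a 1|) ^ 2) * (v + Fintype.card (A × Option Bool) *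
      ∑ a, vY (J.xs a).D * (2 * 5)))).mono fun v' hv' c s p => ?_
  have k5 := cp c s p 5
  have m5 := (vol_core (cp c s p 0) (by norm_num : (0 : ℝ) ≤ 5)).trans (add_le_add (hv c s p)
    (sum_ix_le (f := fun a => vY (J.xs a).D * (2 * 5)) fun a => mul_nonneg (vY_nonneg _) (by norm_num)))
  have sm : Sm (W.Z c).I (ph J c s) := contMDiff_const.sub (contMDiff_finsetSum fun i _ => sm_th i)
  have p0 : ∀ z, 0 ≤ ph J c s z := fun z => sub_nonneg.2 (th_sum dj p (by norm_num) z)
  have p1 : ∀ z, ph J c s z ≤ 1 := fun z => sub_le_self _ (Finset.sum_nonneg fun _ _ => ct_mem.1)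
  have z5 : ∀ z ∉ core J c s 5, ph J c s z = 0 := fun z hz => by
    obtain ⟨i, hi⟩ := not_forall.1 hz
    exact (p0 z).antisymm' (sub_nonpos.2 (th_ge (by norm_num) (by norm_num; exact not_not.1 hi)))
  have k := fun a => ((J.G c s).F.sm_D sm a).continuous
  have q0 : 0 ≤ ∑ _a : Option κ, (Fintype.card (A × Option Bool) * ∑ a, |C a 1|) ^ 2 := by positivity
  refine ⟨Λ.B_ok _ _, (p.ok hJ).1, p.cut hJ, fun i => (sm_th i).continuous, fun _ _ => ct_mem.1,
    th_sum dj p (by norm_num), fun i => ⟨_, _, pn (d := 3) _ (hJ.xs _).1.yd (Λ.B_ok _ _) (p.ok hJ).1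
      (by norm_num), fun z hz => cut_τ_zero _ (by norm_num) hz⟩,
    ⟨sm, .intro k5 z5, subset_univ _⟩, fun z => ?_, (lb_supp (f := fun z => ph J c s z ^ 2)
      k5.measurableSet k5.measure_ne_top m5 (sm.continuous.pow 2).aestronglyMeasurable
      (fun _ => sq_nonneg _) (by linarith) (fun z => (pow_le_one₀ (p0 z) (p1 z)).trans (by linarith))
      fun z hz => by simp [z5 z hz]).le hv',
    (lb_supp k5.measurableSet k5.measure_ne_top m5 (Continuous.aestronglyMeasurable (by fun_prop))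
      (fun _ => by positivity) (by linarith) (fun z => le_add_of_nonneg_of_le zero_le_one
        (Finset.sum_le_sum fun a _ => ?_)) fun z hz => ?_).le hv'⟩
  · by_cases hz : z ∈ core J c s 4
    · rw [ph, Finset.sum_eq_zero fun i _ => cut_τ_zero (d := 4) _ (by norm_num) (hz i)]
      simpa using Finset.sum_nonneg fun (i : Ix J c s) _ => (ct_mem.1 : 0 ≤ th J 3 i z)
    · obtain ⟨i, hi⟩ := not_forall.1 hz
      linarith [th_ge (d := 3) (by norm_num) (by norm_num; exact not_not.1 hi), sq_nonneg (ph J c s z)]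
  · have e : (J.G c s).F.D a (ph J c s) z = -∑ i : Ix J c s, (J.G c s).F.D a (th J 4 i) z := by
      unfold ph
      rw [Pre.D_def, Wz78.dv_sub' contMDiffAt_const (contMDiff_finsetSum (fun i _ => sm_th i) z),
        Wz78.dv_sum' _ fun i => sm_th i z]
      simp [Pre.D_def]
    rw [e, neg_sq, ← sq_abs]
    exact pow_le_pow_left₀ (abs_nonneg _) ((Finset.abs_sum_le_sum_abs _ _).trans
      ((Finset.sum_le_sum fun i _ => ((hC _ (nk J i) 4).2 1 [a] le_rfl z).trans (le_abs_self _)).trans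
        (sum_ix_le (f := fun a => |C a 1|) fun _ => abs_nonneg _))) 2
  · have : z ∉ tsupport (ph J c s) := fun e => hz (closure_minimal (s := support (ph J c s))
      (fun y hy => by_contra fun e => hy (z5 y e)) k5.isClosed e)
    simp [Pre.D_def, Sob92.dv_eq_zero_of_notMem this]

end Crest.Agent.X212.Fin37
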