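import Crest.Agent.X212.Fin37.Bdj
import Crest.Agent.X212.Pat85.Fj
import Crest.Agent.X212.Mp86.Ps

/-!
# Row 212, FIN (helper37): the a priori bound for jobs
-/

set_option autoImplicit false
set_option linter.unusedSectionVars false
noncomputable section
open scoped Manifold ContDiff Topology InnerProductSpace
open MeasureTheory Set Function Filter

namespace Crest.Agent.X212.Fin37
open An An.Job M Nd18
open Mp86 (L4 Wts Dom bd_mono)
open Dgr80 (LB en Amb)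

section gen
variable {E : Type} [NormedAddCommGroup E] [NormedSpace ℝ E] [FiniteDimensional ℝ E]
  [MeasurableSpace E] [BorelSpace E]
  {HM : Type} [TopologicalSpace HM] {I : ModelWithCorners ℝ E HM}
  {M : Type} [TopologicalSpace M] [ChartedSpace HM M] [IsManifold I ∞ M]
  [MeasurableSpace M] {ι : Type} [Fintype ι]
  {lam : Type} [Fintype lam] {r : ℕ} {F : Fr I M ι}
  {c c' : Cfg M ι lam r} {w : M → M → ℝ} {S σ v : ℝ}

theorem le_congr (l : c.Le F w σ) (h1 : ∀ x, ‖c'.Φ x‖ = ‖c.Φ x‖)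
    (h2 : ∀ x, ‖c'.m.Fg F c'.W x‖ = ‖c.m.Fg F c.W x‖) : c'.Le F w σ :=
  ⟨l.one, fun x => h1 x ▸ l.Φ x, fun x => by simpa only [h2] using l.int x,
    fun x => by simpa only [h2] using l.F x⟩

theorem amb_wts (hw : Wts F S w) (wi : ∀ x, LB F.μ (w x) v) (hc : ∃ χ K, Dgr80.Cut F χ K) (x : M) :
    Amb F (w x) :=
  ⟨hw.bp, hc, ⟨(hw.wt x).sm, (hw.wt x).pos, fun y => by
    linarith [(hw.wt x).gr y, sq_nonneg (w x y)]⟩, (wi x).1⟩

end gen

theorem en_arith {C C' γ t : ℝ} (hC : |C| ≤ C') (hγ : 1 ≤ γ) :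
    C * (1 + (γ ^ 2 + (γ + t ^ 2))) ≤ C' * (3 * γ ^ 2 + t ^ 2) :=
  mul_le_mul ((le_abs_self C).trans hC) (by nlinarith) (by positivity) ((abs_nonneg C).trans hC)

variable {Wi : Type} {X : Mf 4} {A κ lam : Type} [Fintype A] [Fintype κ] [Fintype lam]
  [DecidableEq lam] {M : Mark X A κ} {W : World M} {N : ML M lam}
  {Λ : Lns W N} {A' h : Type} [Fintype A'] [DecidableEq A'] [Fintype h] {r n : ℕ}
  (J : Job Wi Λ A' h r n) {c : M.Cl} {σ : Cel A'} {q : Wi →₀ ℝ} {y : J.Obc c}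

/-- the levels of the chains are bounded below -/
def KB (L : ℝ) (Adm : (Wi →₀ ℝ) → Prop) : Prop :=
  ∀ σ ∈ J.𝒦, ∀ c q (y : J.Obc c), Adm q → Sol σ q y → ∀ a ∈ cylW c, -L ≤ y.k a

variable {J}

/-- the bookkeeping of the level -/
theorem lev_bd (H : Sol σ q y) {L : ℝ} (hL : ∀ a ∈ cylW c, -L ≤ y.k a) :
    y.x.kap (J.B c) (J.G c y.s) ≤ |J.k| + Fintype.card A * |L| ∧ ∀ C,
      |y.x.kap (J.B c) (J.G c y.s)| ≤ C → (y.l : ℝ) ≤ C + (|J.k| + Fintype.card A * |L| + |L|) ∧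
        ∀ a ∈ cylW c, |y.k a| ≤ C + (|J.k| + Fintype.card A * |L| + |L|) := by
  have k : ∀ a, 0 ≤ (cylW c).indicator y.k a + |L| := fun a => by
    by_cases ha : a ∈ cylW c
    · linarith [indicator_of_mem ha y.k, hL a ha, le_abs_self L]
    · linarith [indicator_of_notMem ha y.k, abs_nonneg L]
  have e : ∑ a, ((cylW c).indicator y.k a + |L|) =
      ∑ a, (cylW c).indicator y.k a + Fintype.card A * |L| := by simp [Finset.sum_add_distrib]
  have s0 := Finset.sum_nonneg fun a (_ : a ∈ Finset.univ) => k a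
  have l0 : (0 : ℝ) ≤ y.l := Nat.cast_nonneg _
  have j0 := abs_nonneg J.k
  have L0 := abs_nonneg L
  have m0 : 0 ≤ Fintype.card A * |L| := by positivity
  refine ⟨by linarith [H.lev, le_abs_self J.k], fun C hC => ⟨by
    linarith [H.lev, le_abs_self J.k, neg_le_of_abs_le hC], fun a ha => abs_le.2 ⟨by
      linarith [hL a ha, le_abs_self L, (abs_nonneg _).trans hC], ?_⟩⟩⟩
  linarith [H.lev, le_abs_self J.k, neg_le_of_abs_le hC, indicator_of_mem ha y.k,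
    Finset.single_le_sum (fun a _ => k a) (Finset.mem_univ a)]

variable (hJ : J.OK)
include hJ

/-- isomorphic configurations solve the equations -/
theorem sol_iso (hσ : σ ∈ J.𝒦) (H : Sol σ q y) {x : Cfg (W.Z c).M (Option κ) (lam ⊕ lam) r}
    (hx : x.Adm (J.B c) (J.G c y.s)) (e : Cfg.Iso (J.B c) (J.G c y.s).F x y.x) :
    x.Sol (J.B c) (J.G c y.s) (J.τ c q y.s) :=
  let ⟨_, _, e⟩ := e
  have g := hJ.kt hσ H.ov isClopen_univ
  (hJ.τ_nat hσ H.ov isClopen_univ q).rel.sol g.toLG surjective_id H.sol hx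
    (Eqv71.ceq_symm_id g.hB g.hG isOpen_univ (Eqv71.ad0 hx) (Eqv71.ad0 H.sol.toAdm) e)

/-- **JOB-APR** for given weights -/
theorem aprW (tz : TMSZ J) (lit : LIT J) {w : Wf W A'} {S v : ℝ} (S0 : 0 < S) (hw : WU J w S v)
    (L : ℝ) : An.Sml fun Adm => FEN J Adm → KB J L Adm → ∃ C K, ∀ σ ∈ J.𝒦, ∀ c q (y : J.Obc c),
      Adm q → Sol σ q y → Bnd w C y ∧ ∀ w', Wts (J.G c y.s).F S w' →
        (J.τ c q y.s).Bd (J.B c) (J.G c y.s) w' K 1 K := by
  classical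
  have hS := fun c s p => (hw.wts c s p).l4
  obtain ⟨K, hK⟩ := bdj hJ hS S0 tz
  obtain ⟨R, hR⟩ := bd_ν hJ
  choose sz hsz using fun a => Dgr80.en1 (J.xs a).N (J.xs a).D (hJ.xs a).1.yd (hJ.xs a).2
  choose C hC using fun a => hsz a S S0 R r n
  obtain ⟨a, a0, ha⟩ := Ps86.pscal W Λ (Pat85.pm_U hJ)
  obtain ⟨v', hv, hc⟩ := ((eventually_ge_atTop v).and
    (cuts hJ (Pat85.dj hJ) (Pat85.cpt hJ) (Pat85.volJ hJ))).exists
  obtain ⟨V, V0, hV⟩ := ((eventually_ge_atTop 0).and ((tendsto_pow_atTop (α := ℝ)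
    two_ne_zero).eventually_ge_atTop (82 * v' + 96 * (Fintype.card (A × Option Bool) * ∑ a, |C a|) +
      512 * Real.pi ^ 2 * (|J.k| + Fintype.card A * |L|)))).exists
  obtain ⟨ε, ε0, ε1⟩ : ∃ ε > 0, 320 * (V + 1) * ε = 1 :=
    ⟨_, by positivity, mul_inv_cancel₀ (by positivity)⟩
  have C0 : 0 ≤ ∑ a, |C a| := by positivity
  refine ((hK ε ε0).and (An.Sml.all fun a => sml_q (sz a) (J.xs a).ty R)).mono
    fun Adm ⟨h1, h2⟩ fen kb => ⟨kJ V a K K + (|J.k| + Fintype.card A * |L| + |L|), K,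
      fun σ hσ c q y hq H => ?_⟩
  have p : Pm J c y.s := ⟨σ, hσ, H.cell, H.inf⟩
  obtain ⟨x, gd, e⟩ := lit σ hσ c q y H
  obtain ⟨i1, -, i3, i4, i5⟩ := iso_inv (Λ.B_ok _ _) (p.ok hJ).1 (p.ok hJ).2 gd.adm H.sol.toAdm e
  have u := hc c _ p
  have ws := hw.wts c _ p
  have wi := fun z => (hw.int c _ p z).le hv
  have pp := Pat85.pm_par hJ p
  obtain ⟨_, l0⟩ := gd_le gd ws (hw.le c _) wi
  obtain ⟨b1, b2⟩ := lev_bd H (kb σ hσ c q y hq H)
  refine (u.apr ws (hw.le c _) wi H.sol (h1 q hq c _ p _ ws).1 a0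
    (ha _ _ _ pp.1 pp.2.1.1 pp.2.2) H.int (fen σ hσ c q y hq H) (by positivity) b1 C0
    (mul_le_mul_of_nonneg_right (card_le J) C0) (fun t γ l γ1 hγ i => ?_) V0 hV ε1.le
    (le_congr l0 i1 i4)).elim fun l1 ⟨l2, l3, g, l4, l5⟩ => ?_
  swap
  · have d : kJ V a K K ≤ kJ V a K K + (|J.k| + Fintype.card A * |L| + |L|) :=
      le_add_of_nonneg_right (by positivity)
    exact ⟨⟨Mp86.le_mono l1 d, ⟨g, _, l4.mono d fun _ => le_rfl, l3.le d, u.fE_nonneg, fun z =>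
      ⟨(l5 z).trans (add_le_add_left d _), u.F_le H.sol.toAdm z⟩⟩, fun i => (l3.le d).mono
        (fen σ hσ c q y hq H i).1 (fun z => (u.en_le i z).1) fun z => (u.en_le i z).2, l2.trans d,
      (b2 _ l2).1, (b2 _ l2).2⟩, fun w' k => bd_mono (h1 q hq c _ p _ k).1 le_rfl (by nlinarith) le_rfl⟩
  · have hx : ∀ z, ‖x.Φ z‖ ^ 2 ≤ γ := fun z => i1 z ▸ hγ z
    have f := (h1 q hq c _ p _ ws).2 x t γ gd.adm (le_congr l (fun z => (i1 z).symm)
      fun z => (i4 z).symm) (by linarith) hx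
    have t0 : 0 ≤ γ + (ε * t) ^ 2 := by positivity
    rw [i3, i5 _ (nk J i).sm_τ]
    rcases isEmpty_or_nonempty (W.Z c).M with z | ⟨⟨z⟩⟩
    · simp only [integral_of_isEmpty]
      positivity
    refine (hC i.1.1 _ _ (nX hJ hS p i) x _ (fld J c q y.s) (γ ^ 2 + (γ + (ε * t) ^ 2))
      (h2 _ q hq _ (hR c _ p _)) (hR c _ p _) ⟨gd, ⟨_, amb_wts ws wi u.ex z⟩, sol_iso hJ hσ H gd.adm e,
        fun z hz => (tau_nk (Pat85.dj hJ) p i (Nk.dp_sub _ two_pos hz) q x).1,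
        fun z hz => (tau_nk (Pat85.dj hJ) p i (Nk.dp_sub _ two_pos hz) q x).2,
        fun z => le_add_of_le_of_nonneg ((pow_mul _ 2 2).trans_le
          (pow_le_pow_left₀ (sq_nonneg _) (hx z) 2)) t0,
        (f.mono ((sm_th (d := 2) i).continuous.aestronglyMeasurable.mul f.1.1)
          (fun _ => mul_nonneg ct_mem.1 (by positivity)) fun _ =>
            mul_le_of_le_one_left (by positivity) ct_mem.2).le (le_add_of_nonneg_left (sq_nonneg _)),
        i5 _ (nk J i).sm_τ ▸ fen σ hσ c q y hq H i, ?_⟩).trans (add_le_add_right (en_arith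
          (Finset.single_le_sum (f := fun a => |C a|) (fun _ _ => abs_nonneg _) (Finset.mem_univ _))
          γ1) _)
    exact (H.int.congr (.of_eq i3)).bdd_mul (c := 1) (sm_th (d := 3) i).continuous.aestronglyMeasurable
      (.of_forall fun _ => (abs_of_nonneg ct_mem.1).trans_le ct_mem.2)

end Crest.Agent.X212.Fin37
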