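import Crest.Agent.X212.Fin37.Nk
import Crest.Agent.X212.Dgr80.En1

/-!
# Row 212, FIN (helper37): the perturbation of a job is in the class `Bd`, uniformly
-/

set_option autoImplicit false
set_option linter.unusedSectionVars false
noncomputable section
open scoped Manifold ContDiff Topology InnerProductSpace
open MeasureTheory Set Function Filter

namespace Crest.Agent.X212.Fin37
open An An.Job M Nd18
open Mp86 (L4 TmSz Wts NK B0 kC bd_add bd_mono)
open Dgr80 (LB)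

theorem exists_b {ε : ℝ} (hε : 0 < ε) (a1 a2 a3 a4 a5 : ℝ) : ∃ b : ℝ, 1 ≤ b ∧ a1 ≤ 1 * b ^ 2 ∧
    a2 ≤ ε / 2 * b ∧ a3 ≤ 1 * b ∧ a4 ≤ b ^ 2 ∧ a5 ≤ (ε * b) ^ 2 := by
  have t : Tendsto (fun b : ℝ => b ^ 2) atTop atTop := tendsto_pow_atTop two_ne_zero
  simp only [one_mul]
  exact ((eventually_ge_atTop 1).and ((t.eventually_ge_atTop _).and
    (((tendsto_id.const_mul_atTop (half_pos hε)).eventually_ge_atTop _).and
    ((eventually_ge_atTop _).and ((t.eventually_ge_atTop _).and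
    ((t.comp (tendsto_id.const_mul_atTop hε)).eventually_ge_atTop _)))))).exists

theorem fsum_q {V W T : Type} [AddCommGroup V] [Module ℝ V] (f : T → V) (ty : W → T →₀ ℝ) (ν : ℝ)
    (q : W →₀ ℝ) : ((ν • q.sum fun w a => a • ty w).sum fun T b => b • f T) =
      q.sum fun w a => a • (ν • ty w).sum fun T b => b • f T := by
  have e : ∀ t : T →₀ ℝ, (t.sum fun T b => b • f T) = Finsupp.linearCombination ℝ f t :=
    fun t => (Finsupp.linearCombination_apply ℝ t).symm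
  simp only [e, map_smul, map_finsuppSum, Finsupp.smul_sum, smul_comm ν]

/-- smallness of induced coefficients -/
theorem sml_q {W T : Type} (sz : T → ℝ) (ty : W → T →₀ ℝ) (R : ℝ) : An.Sml fun Adm => ∀ q, Adm q →
    ∀ ν, |ν| ≤ R → Nd18.Sml sz (ν • q.sum fun w a => a • ty w) := by
  classical
  let f : (T →₀ ℝ) → ℝ := fun t => t.sum fun T b => |b| * |sz T|
  have f0 : ∀ t, 0 ≤ f t := fun t => Finset.sum_nonneg fun _ _ => by positivity
  have fs : ∀ (a : ℝ) t, f (a • t) = |a| * f t := fun a t => by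
    simp only [f]
    rw [Finsupp.sum_smul_index (by simp), Finsupp.mul_sum]
    simp only [abs_mul, mul_assoc]
  have fa : ∀ t t', f (t + t') ≤ f t + f t' := fun t t' => by
    simp only [f]
    rw [Finsupp.sum_of_support_subset _ Finsupp.support_add _ (by simp),
      Finsupp.sum_of_support_subset t Finset.subset_union_left _ (by simp),
      Finsupp.sum_of_support_subset t' Finset.subset_union_right _ (by simp),
      ← Finset.sum_add_distrib]
    exact Finset.sum_le_sum fun T _ => (mul_le_mul_of_nonneg_right (abs_add_le _ _)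
      (abs_nonneg _)).trans_eq (add_mul _ _ _)
  refine ⟨fun w => |R| * f (ty w), fun w => mul_nonneg (abs_nonneg _) (f0 _),
    fun Adm h q hq ν hν => Nd18.Sml.mono ?_ fun T => le_abs_self (sz T)⟩
  have k := h q hq
  rw [Ball, sub_zero] at k
  refine ((fs _ _).trans_le ((mul_le_mul (hν.trans (le_abs_self R)) (Finset.le_sum_of_subadditive f
    (by simp [f]) fa _ _) (f0 _) (abs_nonneg _)).trans_eq ?_)).trans_lt k
  simp only [fs, Finsupp.sum, Finset.mul_sum, mul_left_comm |R|]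

variable {Wi : Type} {X : Mf 4} {A κ lam : Type} [Fintype A] [Fintype κ] [Fintype lam]
  [DecidableEq lam] {M : Mark X A κ} {W : World M} {N : ML M lam}
  {Λ : Lns W N} {A' h : Type} [Fintype A'] [DecidableEq A'] [Fintype h] {r n : ℕ}
  (J : Job Wi Λ A' h r n) {c : M.Cl} {s : A' → ℝ} {S : ℝ}

variable (c) in
/-- the field terms -/
def fld (q : Wi →₀ ℝ) (s : A' → ℝ) : Pt (W.Z c).M (Option κ) (lam ⊕ lam) r n :=
  fsum (fun w => (tmP (J.B c) (J.G c s).F (tm J c w)).smul (J.co w s)) q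

variable {J}

/-- on a neck the other necks are not seen -/
theorem dsum_nk (dj : DJ J) (p : Pm J c s) (i : Ix J c s) {z : (W.Z c).M}
    (hz : z ∈ (nk J i).ψ.target) {τ : ∀ j, J.Ac c s j → Pt (W.Z c).M (Option κ) (lam ⊕ lam) r n}
    (hτ : ∀ j : Ix J c s, Eqv71.Van0 (nk J j).ψ.targetᶜ (τ j.1 j.2))
    (x : Cfg (W.Z c).M (Option κ) (lam ⊕ lam) r) :
    (Pt.dsum _ τ).D x z = (τ i.1 i.2).D x z ∧ (Pt.dsum _ τ).C x z = (τ i.1 i.2).C x z := by
  classical
  have k : ∀ j (hj : J.Ac c s j), j ≠ i.1 → z ∈ (nk J ⟨j, hj⟩).ψ.targetᶜ := fun j hj e =>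
    disjoint_left.1 (dj c s p fun e' : i = ⟨j, hj⟩ => e (congrArg Subtype.val e').symm) hz
  exact ⟨(Finset.sum_eq_single i.1 (fun j _ e => dite_eq_right_iff.2 fun hj =>
      (hτ ⟨j, hj⟩).D x z (k j hj e)) (by simp)).trans (dif_pos i.2),
    (Finset.sum_eq_single i.1 (fun j _ e => dite_eq_right_iff.2 fun hj =>
      (hτ ⟨j, hj⟩).C x z (k j hj e)) (by simp)).trans (dif_pos i.2)⟩

theorem van0_fsum {M ι lam T : Type} [Fintype ι] [Fintype lam] {r n : ℕ} {O : Set M}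
    {τ : T → Pt M ι lam r n} (h : ∀ t, Eqv71.Van0 O (τ t)) (q : T →₀ ℝ) :
    Eqv71.Van0 O (fsum τ q) :=
  ⟨fun c x hx => by simp [fsum, (h _).D c x hx], fun c x hx => by simp [fsum, (h _).C c x hx],
    fun c i => by simp [fsum, (h _).S c i]⟩

/-- **the perturbation on a neck** -/
theorem tau_nk (dj : DJ J) (p : Pm J c s) (i : Ix J c s) {z : (W.Z c).M}
    (hz : z ∈ (nk J i).ψ.target) (q : Wi →₀ ℝ) (x : Cfg (W.Z c).M (Option κ) (lam ⊕ lam) r) :
    (J.τ c q s).D x z = (((J.xs i.1.1).N.smul (J.ν i.1.1 s)).pt (nk J i)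
      (J.ν i.1.1 s • (J.xs i.1.1).q q) : Pt _ _ _ r n).D x z + (fld J c q s).D x z ∧
    (J.τ c q s).C x z = (((J.xs i.1.1).N.smul (J.ν i.1.1 s)).pt (nk J i)
      (J.ν i.1.1 s • (J.xs i.1.1).q q) : Pt _ _ _ r n).C x z + (fld J c q s).C x z := by
  have a := dsum_nk dj p i hz (τ := fun j hj => ((J.xs j.1).N.smul (J.ν j.1 s)).q1
    (J.K c j.1 j.2 _ hj)) (fun j => Eqv71.van0_q1 _ _) x
  have b := fun w => dsum_nk dj p i hz (τ := fun j hj => fsum (fun T => (J.xs j.1).N.q2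
    (J.K c j.1 j.2 _ hj) T.1) (J.ν j.1 s • (J.xs j.1).ty w))
    (fun j => van0_fsum (fun T => Eqv71.van0_q2 _ _ _) _) x
  have e : ∀ T, (((J.xs i.1.1).N.smul (J.ν i.1.1 s)).q2 (nk J i) T : Pt _ _ _ r n) =
      (J.xs i.1.1).N.q2 (nk J i) T := fun T => by cases T <;> rfl
  simp only [Job.τ, Job.τ0, ND.pt, Pt.add, a, e, fld, Xs.q]
  simp only [fsum] at b ⊢
  simp only [Job.τw, Pt.add, fsum, b, fsum_q, smul_add, Finsupp.sum_add]
  exact ⟨by rw [add_assoc, add_comm (Finsupp.sum _ _)], by rw [add_assoc, add_comm (Finsupp.sum _ _)]⟩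

variable (hJ : J.OK) (hS : ∀ c s, Pm J c s → L4 (J.G c s).F.toPre S)
include hJ hS

/-- the neck with its ambient data -/
abbrev nX (p : Pm J c s) (i : Ix J c s) : NK (J.xs i.1.1).D S :=
  ⟨nk J i, Λ.B_ok _ _, (p.ok hJ).1, (p.ok hJ).2, hS c s p⟩

omit hS in
theorem bd_ν : ∃ R, ∀ c s, Pm J c s → ∀ a, |J.ν a s| ≤ R := by
  choose R hR using fun a => bd_cell J (hJ.ν a).continuous
  exact ⟨∑ a, |R a|, fun c s p a => (hR a c s p).trans ((le_abs_self _).trans
    (Finset.single_le_sum (f := fun a => |R a|) (fun _ _ => abs_nonneg _) (Finset.mem_univ a)))⟩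

/-- **the perturbation of a job** -/
theorem bdj (S0 : 0 < S) (tz : TMSZ J) : ∃ K, ∀ ε > 0, An.Sml fun Adm => ∀ q, Adm q → ∀ c s,
    Pm J c s → ∀ w, Wts (J.G c s).F S w → (J.τ c q s).Bd (J.B c) (J.G c s) w K ε K ∧
      ∀ (x : Cfg (W.Z c).M (Option κ) (lam ⊕ lam) r) σ γ, x.Adm (J.B c) (J.G c s) →
        x.Le (J.G c s).F w σ → 0 ≤ γ → (∀ z, ‖x.Φ z‖ ^ 2 ≤ γ) → LB (J.G c s).F.μ
          (fun z => ‖(fld J c q s).D x z‖ ^ 2 + ‖(fld J c q s).C x z‖ ^ 2) (γ + (ε * σ) ^ 2) := by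
  obtain ⟨R, hR⟩ := bd_ν hJ
  obtain ⟨K0, K1, h0⟩ := ((eventually_ge_atTop 0).and (eventually_all.2 fun a =>
    b0_q1s (r := r) (m := n) (hJ.xs a).1.yd (hJ.xs a).2 S0 R)).exists
  choose K2 K3 h2 using fun w => ((eventually_ge_atTop 0).and (eventually_all.2 fun a =>
    b0_q2s (S := S) (r := r) (m := n) (hJ.xs a).1.yd (hJ.xs a).2 ((J.xs a).ty w) R)).exists
  choose k k1 hk using tz
  choose ρ hρ using fun w => bd_cell J (hJ.co w).continuous
  refine ⟨2 * (2 ^ Fintype.card (A × Option Bool) * (Fintype.card (A × Option Bool) * K0)) + 2 * 1,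
    fun ε hε => ?_⟩
  choose b b1 b2 b3 b4 b5 b6 using fun w => exists_b hε
    (2 * (4 * ρ w ^ 2 * (64 * k w * (4 * k w) ^ k w)) +
      2 * (2 ^ Fintype.card (A × Option Bool) * (Fintype.card (A × Option Bool) * K2 w)))
    (2 * (ρ w * kC (k w) S) + 2 * 0) (2 * (ρ w * kC (k w) S) +
      2 * (2 ^ Fintype.card (A × Option Bool) * (Fintype.card (A × Option Bool) * K2 w)))
    (ρ w ^ 2 * (64 * k w * (4 * k w) ^ k w) * k w) ((2 * ρ w * kC (k w) S) ^ 2 * k w)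
  refine ⟨b, fun w => zero_le_one.trans (b1 w), fun Adm hA q hq c s p w hw => ?_⟩
  have hb := (hA q hq).le
  rw [sub_zero] at hb
  obtain ⟨σ, hσ, p1, p2⟩ := id p
  refine ⟨bd_mono (bd_add ((b0_dsum K1 fun i hi => h0 i.1 _ (hR c s p _) (nX hJ hS p ⟨i, hi⟩)).bd w)
    (bd_fsum b1 zero_le_one (half_pos hε).le zero_le_one hb b2 b3 b4 fun i => bd_add
      (bd_tm hw (Λ.B_ok _ _) (k1 i) (fun e => (hk i c s p e).1) (hρ i c s p))
      ((b0_dsum (K3 i) fun j hj => h2 i j.1 _ (hR c s p _) (nX hJ hS p ⟨j, hj⟩)).bd w)))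
    le_rfl (by linarith) le_rfl, fun x σ' γ a l γ0 hγ => lb_fld hw (Λ.B_ok _ _) k1 (fun i e =>
      ⟨(hJ.tw_in hσ ⟨J.cl_dom p1, p2⟩ e).choose_spec.ok _, (hk i c s p e).1, (hk i c s p e).2⟩)
      (fun i => hρ i c s p) (fun i => one_pos.trans_le (b1 i)) hb b5 b6 a l γ0 hγ⟩

end Crest.Agent.X212.Fin37
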