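import Crest.Agent.X212.Fin37.Top
import Crest.Agent.X212.Shi84.Nc
import Crest.Agent.X212.Cmp73.Top

/-!
# Row 212, FIN (helper37): **APJ**, the a priori bounds in the form used by COMP
-/

set_option autoImplicit false
set_option linter.unusedSectionVars false
noncomputable section
open scoped Manifold ContDiff Topology InnerProductSpace
open MeasureTheory Set Function Filter

namespace Crest.Agent.X212.Fin37
open An An.Job M Nd18 Wz78
open Mp86 (Wts Dom gr2)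
open Dgr80 (LB)
open Cmp73 (AG AN)

section gen
variable {E : Type} [NormedAddCommGroup E] [NormedSpace ℝ E] [FiniteDimensional ℝ E]
  [MeasurableSpace E] [BorelSpace E]
  {HM : Type} [TopologicalSpace HM] {I : ModelWithCorners ℝ E HM} [I.Boundaryless]
  {M : Type} [TopologicalSpace M] [ChartedSpace HM M] [IsManifold I ∞ M]
  [MeasurableSpace M] [T2Space M] [BorelSpace M] [SecondCountableTopology M] {ι : Type} [Fintype ι]
  {lam : Type} [Fintype lam] {r n : ℕ} {B : Base M ι lam} {G : Geo I M ι lam}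
  {c x : Cfg M ι lam r} {w w' : M → M → ℝ} {τ : Pt M ι lam r n} {K ε R σ a S C : ℝ}

/-- the gradient of the spinor is dominated -/
theorem dom_nab (hB : B.OK I) (hG : G.OK B) (h : c.Sol B G τ) (hτ : τ.Bd B G w K ε R)
    (hσ : c.Le G.F w σ) (a0 : 0 ≤ a) (ha : ∀ x, √(∑ s, fP B G x s ^ 2) - sc G x / 4 ≤ a) :
    Dom G.F (2 * σ + σ + 1 / 2 * (ε * σ + R) + 2 * (2 * (a + 2 * (K + 1)) * σ +
      (ε * σ + R) ^ 2 / 2 + σ)) (gr2 I G.F.e c.W c.Φ) := by
  obtain ⟨g, g1, g2⟩ := hτ.C c σ h.toAdm hσ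
  obtain ⟨-, -, f, f1, f2⟩ := hτ.D c σ h.toAdm hσ
  have K0 := hτ.K0
  have σ0 := zero_le_one.trans hσ.one
  have d0 : 0 < 1 / (2 * (K + 1)) := by positivity
  have d1 : 1 / (2 * (K + 1)) * K ≤ 1 / 2 := by
    rw [div_mul_eq_mul_div, div_le_iff₀ (by positivity)]; linarith
  have k : Dom G.F σ fun x => Mp86.Lop I G.F.e G.F.dv (fun y => ‖c.Φ y‖ ^ 2) x / 2 :=
    ⟨_, fun x => Mp86.cm_normSq (h.sm x), fun x => ⟨sq_nonneg _, hσ.Φ x, by linarith⟩⟩
  refine ((((k.mul zero_le_two).add ((f1.mul (mul_pos two_pos d0).le).mono (β' := σ) (by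
    nlinarith [mul_le_mul_of_nonneg_right d1 σ0]) fun _ => le_rfl)).add
      (g1.mul (C := 1 / 2) (by norm_num))).add (Dom.const (by positivity))).mono le_rfl fun x => ?_
  have e := (Mp86.solOn_of_sol h).ineq hB hG (mem_univ x) d0 (ha x)
  have A := (Mp86.mc_W h.conn).mc x
  have g0 : 0 ≤ gr2 I G.F.e c.W c.Φ x := Mp86.gr2_nonneg
  rw [Mp86.Lop_normSq (Mp86.vf G.F.toPre x) A.sm A.sk (Mp86.cm2 h.sm x), show Mp86.LA I G.F.e G.F.dv
    c.W c.Φ x = -lap I G.F.e G.F.dv c.W c.Φ x from (neg_neg _).symm, inner_neg_left]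
  rw [one_div_one_div] at e
  change gr2 I G.F.e c.W c.Φ x ≤ 2 * ((_ + 2 * gr2 I G.F.e c.W c.Φ x) / 2) + _ + _ + _
  linarith [g2 x, mul_le_mul_of_nonneg_left (f2 x) d0.le, sq_nonneg (‖c.Φ x‖ ^ 2),
    mul_le_mul_of_nonneg_left (hσ.Φ x) (show 0 ≤ a + 2 * (K + 1) by positivity),
    mul_le_mul_of_nonneg_right d1 (add_nonneg σ0 g0),
    mul_assoc (1 / (2 * (K + 1))) K (σ + gr2 I G.F.e c.W c.Φ x)]

/-- the constant of `AG` -/
def kA (K σ a e : ℝ) : ℝ := max (max σ e) (max (2 * (32 * σ ^ 2 + 2 * (1 * σ + K) ^ 2) +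
  2 * (1 * σ + K)) (2 * σ + σ + 1 / 2 * (1 * σ + K) + 2 * (2 * (a + 2 * (K + 1)) * σ +
    (1 * σ + K) ^ 2 / 2 + σ)))

theorem le_kA {e : ℝ} : σ ≤ kA K σ a e := le_max_of_le_left (le_max_left _ _)

/-- the bounds `AG` -/
theorem ag {e : ℝ} (hB : B.OK I) (hG : G.OK B) (hT : ∃ C, G.F.Tame C) (h : c.Sol B G τ)
    (gd : Dgr80.Gd B G x) (i : Cfg.Iso B G.F x c) (hτ : τ.Bd B G w K 1 K) (l : c.Le G.F w σ)
    (a0 : 0 ≤ a) (ha : ∀ x, √(∑ s, fP B G x s ^ 2) - sc G x / 4 ≤ a) (S0 : 0 < S)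
    (hw : Wts G.F S w') (he : ∀ z, LB G.F.μ (fun y => (w' z y * ‖c.m.Fg G.F c.W y‖) ^ 2) e) :
    AG B G c w' S (kA K σ a e) :=
  have o := l.one.trans (le_kA (K := K) (a := a) (e := e))
  let ⟨C, hC⟩ := cb_Fg gd
  ⟨⟨hB, hG, hT, h.ok, h.conn, h.sm, h.pos, ⟨_, fun y => Real.le_sqrt_of_sq_le (l.Φ y)⟩, √C,
      fun y => ((iso_inv hB hG hT gd.adm h.toAdm i).2.2.2.1 y).trans_le
        (Real.le_sqrt_of_sq_le (hC y))⟩, h.z, S0, hw, ⟨o, fun y => (l.Φ y).trans le_kA,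
    fun z => (he z).1, fun z => (he z).2.trans ((le_max_of_le_left (le_max_right _ _)).trans
      (le_self_pow₀ o two_ne_zero))⟩, (Shi84.dom_p2 hB h hτ l).mono
    (le_max_of_le_right (le_max_left _ _)) fun _ => le_rfl, (dom_nab hB hG h hτ l a0 ha).mono
    (le_max_of_le_right (le_max_right _ _)) fun _ => le_rfl⟩

end gen

theorem dW_quarter {A κ : Type} [Fintype A] [Fintype κ] (a : A) : dW A κ ≤ 1 / 4 := by
  have h1 : 1 ≤ cτ := by
    have := (bd_dtf.choose_spec none none).2 1 0 zero_le_one 0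
    rw [show tf none none = id from funext fun s => by simp [tf]] at this
    exact (by simpa using this : (1 : ℝ) ≤ _).trans (le_abs_self _)
  have h2 : 1 ≤ nN A := Nat.one_le_cast.2 (Fintype.card_pos_iff.2 ⟨(a, none)⟩)
  have h3 : 1 ≤ cW A κ := one_le_mul_of_one_le_of_one_le h2
    (le_add_of_nonneg_of_le (by positivity) (h1.trans (le_abs_self _)))
  have h4 := dW_le (A := A) (κ := κ) (s := 1) (by linarith)
  have h5 := dW_pos (A := A) (κ := κ)
  have h6 := mul_le_mul_of_nonneg_left h3 h5.le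
  nlinarith [mul_nonneg (Nat.cast_nonneg (α := ℝ) (Fintype.card (Option κ)))
    (mul_nonneg h5.le (zero_le_one.trans h3))]

variable {Wi : Type} {X : Mf 4} {A κ lam : Type} [Fintype A] [Fintype κ] [Fintype lam]
  [DecidableEq lam] {M : Mark X A κ} {W : World M} {N : ML M lam}
  {Λ : Lns W N} {A' h : Type} [Fintype A'] [DecidableEq A'] [Fintype h] {r n : ℕ}
  {J : Job Wi Λ A' h r n} {c : M.Cl} {s : A' → ℝ}

/-- the time of a neck is constant on the other necks -/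
theorem tau_const (dj : DJ J) (p : Pm J c s) {i j : Ix J c s} (e : i ≠ j) {x z : (W.Z c).M}
    (hx : x ∈ (nk J i).ψ.target) (hz : z ∈ (nk J i).ψ.target) : (nk J j).τ z = (nk J j).τ x := by
  have := conn_xs J i.1.1
  have k : IsPreconnected (nk J i).ψ.target := by
    rw [← (nk J i).ψ.image_source_eq_target]
    refine IsPreconnected.image ?_ _ (nk J i).ψ.continuousOn
    rw [Nk.src]
    exact isPreconnected_univ.prod (OrdConnected.isPreconnected ⟨fun a ha b hb t ht =>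
      ⟨fun d hd => (ha.1 d hd).trans_le ht.1, fun d hd => ht.2.trans_lt (hb.2 d hd)⟩⟩)
  refine k.constant_of_mapsTo (T := {(nk J j).p.getD 0, (nk J j).q.getD 0})
    (toFinite _).isDiscrete (nk J j).sm_τ.continuous.continuousOn (fun y hy => ?_) hz hx
  exact ((tf_bd (nk J j).len _).2.2 fun k => disjoint_left.1 (dj c s p e) hy
    ((nk J j).tgt.ge k)).imp (fun k => by rw [Option.mem_def.1 k]; rfl)
      fun k => by rw [Option.mem_def.1 k]; rfl

/-- the weights on a neck -/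
theorem wx_low (dj : DJ J) (p : Pm J c s) (i : Ix J c s) {x z : (W.Z c).M} (hx : x ∈ (nk J i).dp 1)
    (hz : z ∈ (nk J i).dp 1) :
    Real.exp (-(√(1 + ((nk J i).tm z - (nk J i).tm x) ^ 2) / 4)) ≤ J.wx c s x z := by
  classical
  have e : J.ux c (J.Θ s) x z = sa ((nk J i).tm z - (nk J i).tm x) :=
    (Finset.sum_eq_single i.1 (fun j _ e => dite_eq_right_iff.2 fun hj => by
      beta_reduce
      rw [tau_const dj p (j := ⟨j, hj⟩) (fun e' => e (congrArg Subtype.val e').symm)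
        (Nk.dp_sub _ one_pos hx) (Nk.dp_sub _ one_pos hz)]
      simp [sa]) (by simp)).trans ((dif_pos i.2).trans (by rw [← Nk.τ_eq _ hx, ← Nk.τ_eq _ hz]))
  refine Real.exp_le_exp.2 (neg_le_neg ?_)
  rw [e, add_zero]
  linarith [mul_le_mul_of_nonneg_right (dW_quarter (κ := κ) i.1.1)
    (sa_nonneg ((nk J i).tm z - (nk J i).tm x)), show sa ((nk J i).tm z - (nk J i).tm x) =
      √(1 + ((nk J i).tm z - (nk J i).tm x) ^ 2) - 1 from rfl]

/-- **APJ** -/
theorem apj (hJ : J.OK) (tz : TMSZ J) (lit : LIT J) (lv : LVB J) :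
    An.Sml fun Adm => FEN J Adm → CHH J Adm → Cmp73.APJ J Adm := by
  obtain ⟨S, S0, v, hw, k⟩ := aprX hJ tz lit lv
  obtain ⟨b, hb⟩ := half hJ (Pat85.volJ hJ)
  obtain ⟨a, a0, ha⟩ := Ps86.pscal W Λ (Pat85.pm_U hJ)
  refine k.mono fun Adm k f ch => let ⟨C, K, k⟩ := k f ch
    ⟨S, kA K C a (4 * ((12 * C + 30 * C) * b + C)), fun σ hσ c q y hq H => ?_⟩
  have p : Pm J c y.s := ⟨σ, hσ, H.cell, H.inf⟩
  obtain ⟨h1, h2⟩ := k σ hσ c q y hq H
  obtain ⟨x, gd, e⟩ := lit σ hσ c q y H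
  have pp := Pat85.pm_par hJ p
  have ws := hw.wts c _ p
  refine ⟨ag (Λ.B_ok _ _) (p.ok hJ).1 (p.ok hJ).2 H.sol gd e (h2 _ ws) h1.le a0
    (ha _ _ _ pp.1 pp.2.1.1 pp.2.2) S0 (wts hJ pp.2.1 pp.2.2 ws.l4 S0.le) fun z => ?_,
    fun b d hd => ⟨(h1.en ⟨(b, d), hd⟩).le le_kA, fun x hx z hz =>
      (wx_low (Pat85.dj hJ) p ⟨(b, d), hd⟩ hx hz).trans wx_le⟩, h1.l.trans le_kA,
    fun b hb => (h1.k b hb).trans le_kA⟩
  obtain ⟨k1, k2, k3, k4⟩ := hb c _ p z
  convert (h1.wt hJ p H.sol.toAdm k1 k2 k3 k4).mul (c := 4) (by norm_num) using 2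
  ring

end Crest.Agent.X212.Fin37
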