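import Crest.Agent.X212.Dgr80.Wk
import Crest.Agent.X212.Dgr80.Pw
import Crest.Agent.X212.Mp86.Ctl

/-!
# Row 212, FIN (helper37): integrals of dominated functions, the energy bookkeeping
-/

set_option autoImplicit false
set_option linter.unusedSectionVars false
noncomputable section
open scoped Manifold ContDiff Topology InnerProductSpace
open MeasureTheory Set Function Filter

namespace Crest.Agent.X212.Fin37
open An Wz78 Dgr80 Sob92
open Mp86 (Dom Lop)

/-- the bookkeeping: `N = |F|²`, `P = |F⁺|²`, `k` the level density, `e j` the energy of a neck -/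
theorem lb_book {X J : Type*} [MeasurableSpace X] [Fintype J] {μ : Measure X} {N P k φ : X → ℝ}
    {θ e : J → X → ℝ} {p a E : ℝ} (hN : ∀ x, N x = 2 * P x + 8 * p * k x) (N0 : ∀ x, 0 ≤ N x)
    (P0 : ∀ x, 0 ≤ P x) (mN : AEStronglyMeasurable N μ) (mθ : ∀ j, AEStronglyMeasurable (θ j) μ)
    (θ1 : ∀ x, ∑ j, θ j x ≤ 1) (hφ : ∀ x, 1 - ∑ j, θ j x ≤ φ x)
    (θe : ∀ j x, 0 ≤ θ j x * e j x) (ha : LB μ (fun x => φ x * P x) a) (ik : Integrable k μ)
    (ie : ∀ j, Integrable (fun x => θ j x * e j x) μ)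
    (ik' : ∀ j, Integrable (fun x => θ j x * k x) μ)
    (hE : ∀ j, ∫ x, θ j x * e j x ∂μ ≤ p * ∫ x, θ j x * k x ∂μ + E) :
    LB μ (fun x => (1 - ∑ j, θ j x) * N x + 32 * ∑ j, θ j x * e j x)
      (8 * a + 32 * (p * ∫ x, k x ∂μ + Fintype.card J * E)) := by
  have h1 : LB μ (fun x => ∑ j, (θ j x * e j x - p * (θ j x * k x))) (∑ _j : J, E) :=
    LB.sum _ fun j _ => ⟨(ie j).sub ((ik' j).const_mul p), by
      rw [integral_sub (ie j) ((ik' j).const_mul p), integral_const_mul]; linarith [hE j]⟩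
  have h2 : LB μ (fun x => p * k x) (p * ∫ x, k x ∂μ) :=
    ⟨ik.const_mul p, (integral_const_mul _ _).le⟩
  refine ((ha.mul (by norm_num : (0 : ℝ) ≤ 8)).add ((h2.add h1).mul
    (by norm_num : (0 : ℝ) ≤ 32))).mono (g' := fun x => (1 - ∑ j, θ j x) * N x +
      32 * ∑ j, θ j x * e j x) (((aestronglyMeasurable_const.sub
      (Finset.aestronglyMeasurable_fun_sum _ fun j _ => mθ j)).mul mN).add
        ((integrable_finsetSum _ fun j _ => ie j).const_mul 32).1) (fun x => add_nonneg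
          (mul_nonneg (by linarith [θ1 x]) (N0 x)) (mul_nonneg (by norm_num)
            (Finset.sum_nonneg fun j _ => θe j x))) (fun x => ?_) |>.le (by simp)
  have e1 := mul_le_mul_of_nonneg_right (hφ x) (P0 x)
  have e2 := mul_nonneg (sub_nonneg.2 (θ1 x)) (N0 x)
  simp only [Finset.sum_sub_distrib, ← Finset.mul_sum, ← Finset.sum_mul]
  rw [hN x] at e2 ⊢
  nlinarith

variable {E : Type} [NormedAddCommGroup E] [NormedSpace ℝ E] [FiniteDimensional ℝ E]
  [MeasurableSpace E] [BorelSpace E]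
  {HM : Type} [TopologicalSpace HM] {I : ModelWithCorners ℝ E HM}
  {M : Type} [TopologicalSpace M] [ChartedSpace HM M] [IsManifold I ∞ M]
  [MeasurableSpace M] [T2Space M] [BorelSpace M] {ι : Type} [Fintype ι]
  {F : Fr I M ι} {β C a b : ℝ} {f g φ : M → ℝ}

/-- Caccioppoli inequality for dominated functions -/
theorem dom_cacc (h : Dom F β g) (hβ : 0 < β) (hf : Continuous f) (hC : ∀ x, f x ≤ C + g x)
    (f0 : ∀ x, 0 ≤ f x) (C0 : 0 ≤ C) (hφ : Ts I univ φ) (ha : LB F.μ (fun x => φ x ^ 2) a)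
    (hb : LB F.μ (fun x => ∑ i, F.D i φ x ^ 2) b) :
    LB F.μ (fun x => φ x ^ 2 * f x) ((2 * C + β) * a + 2 * β * b) := by
  obtain ⟨u, h1, h2⟩ := h
  have k2 := hφ.sm.continuous
  have hv : Ts I univ fun x => φ x * (φ x * (β + u x)) :=
    hφ.mul (hφ.sm.mul (contMDiff_const.add h1))
  have hX := fun i => hv.mul (F.sm_D h1 i)
  have e1 := integral_dvg (F := F) (fun i => (hX i).sm) fun i => (hX i).hc
  have i1 := integ_dvg (F := F) (fun i => (hX i).sm) fun i => (hX i).hc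
  have l1 : LB F.μ (fun x => (2 * β)⁻¹ * dvg I F.e F.dv
      (fun i x => φ x * (φ x * (β + u x)) * F.D i u x) x) 0 :=
    ⟨i1.const_mul _, by rw [integral_const_mul, e1, mul_zero]⟩
  refine ((((ha.mul (by positivity : 0 ≤ 2 * C + β)).add (hb.mul (by positivity : 0 ≤ 2 * β))).add
    l1).mono (Continuous.aestronglyMeasurable (by fun_prop))
      (fun x => mul_nonneg (sq_nonneg _) (f0 x)) fun x => ?_).le (by simp)
  have e2 : dvg I F.e F.dv (fun i x => φ x * (φ x * (β + u x)) * F.D i u x) x =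
      φ x ^ 2 * (β + u x) * Lop I F.e F.dv u x + ∑ i, ((φ x * F.D i u x + (β + u x) * F.D i φ x) ^ 2
        - (β + u x) ^ 2 * F.D i φ x ^ 2) := by
    unfold dvg Lop
    rw [Finset.mul_sum, ← Finset.sum_add_distrib]
    refine Finset.sum_congr rfl fun i _ => ?_
    have s1 : SA I (fun x => β + u x) x := (contMDiff_const.add h1) x
    rw [dv_mul (hv.sm x) (F.sm_D h1 i x), dv_mul (hφ.sm x) (SA.mul (hφ.sm x) s1),
      dv_mul (hφ.sm x) s1, dv_add' contMDiffAt_const (h1 x)]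
    simp only [Pre.D, smul_eq_mul, Mp86.dv_const]; ring
  obtain ⟨a1, a2, a3⟩ := h2 x
  have b1 : 0 ≤ ∑ i, F.D i φ x ^ 2 := Finset.sum_nonneg fun _ _ => sq_nonneg _
  have b2 : 0 ≤ ∑ i, (φ x * F.D i u x + (β + u x) * F.D i φ x) ^ 2 :=
    Finset.sum_nonneg fun _ _ => sq_nonneg _
  have b3 : (β + u x) ^ 2 * ∑ i, F.D i φ x ^ 2 ≤ (2 * β) ^ 2 * ∑ i, F.D i φ x ^ 2 := by
    gcongr; linarith
  have b4 : 2 * β * f x - 2 * β * (2 * C + β) ≤ (β + u x) * Lop I F.e F.dv u x := by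
    nlinarith [mul_le_mul_of_nonneg_left a3 (by linarith : 0 ≤ β + u x), mul_nonneg a1 (f0 x),
      mul_le_mul_of_nonneg_left (hC x) (by linarith : 0 ≤ β + u x),
      mul_le_mul_of_nonneg_right a2 (by positivity : 0 ≤ 2 * C + β)]
  rw [e2, Finset.sum_sub_distrib, ← Finset.mul_sum, ← sub_le_iff_le_add', le_inv_mul_iff₀
    (by positivity)]
  nlinarith [mul_le_mul_of_nonneg_left b4 (sq_nonneg (φ x))]

/-- the same for weights which are square integrable with their derivatives -/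
theorem dom_wt (hc : ∃ χ K, Cut F χ K) (h : Dom F β g) (hβ : 0 < β) (hf : Continuous f)
    (hC : ∀ x, f x ≤ C + g x) (f0 : ∀ x, 0 ≤ f x) (C0 : 0 ≤ C) (hφ : Sm I φ)
    (ha : LB F.μ (fun x => φ x ^ 2) a) (hb : LB F.μ (fun x => ∑ i, F.D i φ x ^ 2) b) :
    LB F.μ (fun x => φ x ^ 2 * f x) ((2 * C + β) * a + 4 * β * b) := by
  obtain ⟨χ, K, hχ⟩ := hc
  have k1 := hφ.continuous
  have k2 := fun n => (hχ.ts n).sm.continuous
  have k7 := fun n i => (F.sm_D (hχ.ts n).sm i).continuous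
  have k8 := fun i => (F.sm_D hφ i).continuous
  have bd : ∀ n x, (∑ i, F.D i (χ n) x ^ 2) * φ x ^ 2 ≤ (∑ _i : ι, K ^ 2) * φ x ^ 2 := fun n x =>
    mul_le_mul_of_nonneg_right (Finset.sum_le_sum fun i _ =>
      sq_le_sq' (abs_le.1 (hχ.gr n x i)).1 (abs_le.1 (hχ.gr n x i)).2) (sq_nonneg _)
  have t : Tendsto (fun n => ∫ x, (∑ i, F.D i (χ n) x ^ 2) * φ x ^ 2 ∂F.μ) atTop (𝓝 0) := by
    have := tendsto_integral_of_dominated_convergence (μ := F.μ)
      (F := fun n x => (∑ i, F.D i (χ n) x ^ 2) * φ x ^ 2) (f := fun _ => 0)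
      (fun x => (∑ _i : ι, K ^ 2) * φ x ^ 2)
      (fun n => Continuous.aestronglyMeasurable (by fun_prop)) (ha.1.const_mul _)
      (fun n => .of_forall fun x => (Real.norm_of_nonneg (by positivity)).trans_le (bd n x))
      (.of_forall fun x => tendsto_const_nhds.congr' ((hχ.ev x).mono fun n hn => by simp [hn.2]))
    simpa using this
  have t2 := (((t.const_mul 2).const_add (2 * b)).const_mul (2 * β)).const_add ((2 * C + β) * a)
  have x1 : ∀ n x, χ n x ^ 2 ≤ 1 := fun n x => (sq_le_one_iff_abs_le_one _).2 (hχ.le n x)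
  refine (LB.lim (f := fun n x => (χ n x * φ x) ^ 2 * f x) (Continuous.measurable (by fun_prop))
    (fun x => mul_nonneg (sq_nonneg _) (f0 x)) (fun n => Continuous.measurable (by fun_prop))
    (fun n x => mul_nonneg (sq_nonneg _) (f0 x)) (fun n => dom_cacc h hβ hf hC f0 C0
      ((hχ.ts n).mul hφ) (ha.mono (Continuous.aestronglyMeasurable (by fun_prop))
        (fun _ => sq_nonneg _) fun x => ?_) ?_) t2
    fun x => tendsto_const_nhds.congr' ((hχ.ev x).mono fun n hn => by simp [hn.1])).le (by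
      simp only [mul_zero, add_zero]; linarith)
  · rw [mul_pow]; exact mul_le_of_le_one_left (sq_nonneg _) (x1 n x)
  · have l : LB F.μ (fun x => (∑ i, F.D i (χ n) x ^ 2) * φ x ^ 2)
        (∫ x, (∑ i, F.D i (χ n) x ^ 2) * φ x ^ 2 ∂F.μ) :=
      ⟨(LB.mono ⟨ha.1.const_mul _, le_rfl⟩ (Continuous.aestronglyMeasurable (by fun_prop))
        (fun x => by positivity) (bd n)).1, le_rfl⟩
    have k9 := fun i => (F.sm_D ((hχ.ts n).mul hφ).sm i).continuous
    refine ((hb.mul zero_le_two).add (l.mul zero_le_two)).mono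
      (Continuous.aestronglyMeasurable (by fun_prop)) (fun x => by positivity) fun x => ?_
    simp only [Finset.mul_sum, Finset.sum_mul, ← Finset.sum_add_distrib]
    refine Finset.sum_le_sum fun i _ => ?_
    rw [Pre.D_def, dv_mul ((hχ.ts n).sm x) (hφ x), ← Pre.D_def, ← Pre.D_def]
    nlinarith [sq_nonneg (F.D i (χ n) x * φ x - χ n x * F.D i φ x),
      mul_le_mul_of_nonneg_right (x1 n x) (sq_nonneg (F.D i φ x))]

variable {lam : Type} [Fintype lam] {r : ℕ} {B : Base M ι lam} {G : Geo I M ι lam}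
  {c : Cfg M ι lam r} [DecidableEq ι] {τ : M → ℝ} {a₀ : ι} {O : Set M} {x : M}

/-- on a product neck the curvature is bounded by its self-dual part and the energy -/
theorem pn_F (P : PN B G τ a₀ O) (A : c.Adm B G) (hx : x ∈ O) : ‖c.m.Fg G.F c.W x‖ ^ 2 ≤
    6 * ‖c.m.p2 B x (c.m.Fg G.F c.W x)‖ ^ 2 + 32 * en G.F c τ x := by
  have h1 := P.kd_eq A hx
  have h2 := (neg_le_abs _).trans (abs_real_inner_le_norm (c.m.p2 B x (c.m.Fg G.F c.W x))
    (oT G.F τ x (xA G.F c τ x)))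
  rw [P.norm_oT hx] at h2
  rw [norm_Fg_sq P.hG A.conn P.hB, en]
  nlinarith [sq_nonneg (‖c.m.p2 B x (c.m.Fg G.F c.W x)‖ - ‖xA G.F c τ x‖), sq_nonneg ‖xP G.F c τ x‖]

end Crest.Agent.X212.Fin37
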