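import Crest.Agent.X212.Mp86.Nkb
import Crest.Agent.X212.An.Job

/-!
# Row 212, FIN (helper37): convex combinations of perturbations
-/

set_option autoImplicit false
set_option linter.unusedSectionVars false
noncomputable section
open scoped Manifold ContDiff Topology InnerProductSpace
open MeasureTheory Set Function Filter

namespace Crest.Agent.X212.Fin37
open An Wz78 Mp86 Nd18 Dgr80

/-- Jensen's inequality -/
theorem jensen {V W : Type*} [NormedAddCommGroup V] [NormedSpace ℝ V] (s : Finset W) {a b : W → ℝ}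
    (hb : ∀ w, 0 < b w) (h : ∑ w ∈ s, |a w| * b w ≤ 1) (v : W → V) :
    ‖∑ w ∈ s, a w • v w‖ ^ 2 ≤ ∑ w ∈ s, |a w| / b w * ‖v w‖ ^ 2 := by
  have h1 : ‖∑ w ∈ s, a w • v w‖ ≤ ∑ w ∈ s, |a w| * ‖v w‖ :=
    (norm_sum_le _ _).trans (le_of_eq (Finset.sum_congr rfl fun w _ => norm_smul _ _))
  have p : ∀ w ∈ s, 0 ≤ |a w| / b w * ‖v w‖ ^ 2 := fun w _ => by have := hb w; positivity
  have h2 := Finset.sum_sq_le_sum_mul_sum_of_sq_le_mul s (r := fun w => |a w| * ‖v w‖)
    (f := fun w => |a w| * b w) (g := fun w => |a w| / b w * ‖v w‖ ^ 2)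
    (fun w _ => by have := hb w; positivity) p fun w _ => le_of_eq (by have := (hb w).ne'; field_simp)
  exact ((pow_le_pow_left₀ (norm_nonneg _) h1 2).trans h2).trans
    (mul_le_of_le_one_left (Finset.sum_nonneg p) h)

theorem cvx_le {W : Type*} (s : Finset W) {a b k : W → ℝ} {K : ℝ} (hb : ∀ w, 0 < b w) (hK : 0 ≤ K)
    (h : ∑ w ∈ s, |a w| * b w ≤ 1) (hk : ∀ w ∈ s, k w ≤ K * b w ^ 2) :
    ∑ w ∈ s, |a w| / b w * k w ≤ K := by
  refine le_trans (Finset.sum_le_sum fun w hw => ?_)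
    (((Finset.mul_sum s _ K).symm.trans_le (mul_le_of_le_one_right hK h)))
  have := hb w
  calc |a w| / b w * k w ≤ |a w| / b w * (K * b w ^ 2) := by gcongr; exact hk w hw
    _ = K * (|a w| * b w) := by field_simp

section gen
variable {E : Type} [NormedAddCommGroup E] [NormedSpace ℝ E] [FiniteDimensional ℝ E]
  [MeasurableSpace E] [BorelSpace E]
  {HM : Type} [TopologicalSpace HM] {I : ModelWithCorners ℝ E HM}
  {M : Type} [TopologicalSpace M] [ChartedSpace HM M] [IsManifold I ∞ M]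
  [MeasurableSpace M] {ι : Type} [Fintype ι] {lam : Type} [Fintype lam] {r n : ℕ}
  {V : Type} [NormedAddCommGroup V] [InnerProductSpace ℝ V]
  {F : Fr I M ι} {A : ι → M → V →L[ℝ] V} {γ : M → ℝ} {σ K ε R : ℝ}
  {W : Type} {a b : W → ℝ}

theorem dom_sum (s : Finset W) {β : W → ℝ} {g : W → M → ℝ} (ha : ∀ w ∈ s, 0 ≤ a w)
    (h : ∀ w ∈ s, Dom F (β w) (g w)) :
    Dom F (∑ w ∈ s, a w * β w) fun x => ∑ w ∈ s, a w * g w x := by
  classical
  induction s using Finset.induction_on with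
  | empty => simpa using Dom.zero (F := F) le_rfl
  | insert k s hk ih =>
    simp only [Finset.sum_insert hk]
    exact ((h k (by simp)).mul (ha k (by simp))).add
      (ih (fun j hj => ha j (by simp [hj])) fun j hj => h j (by simp [hj]))

theorem ctl_cvx (s : Finset W) {ψ : W → M → V} {k : W → ℝ} (hb : ∀ w, 0 < b w) (hK : 0 ≤ K)
    (hσ : 0 ≤ σ) (hγ : ∀ x, 0 ≤ γ x) (h : ∑ w ∈ s, |a w| * b w ≤ 1) (hk : ∀ w, k w ≤ K * b w ^ 2)
    (hc : ∀ w, Ctl F γ σ (k w) A (ψ w)) : Ctl F γ σ K A fun x => ∑ w ∈ s, a w • ψ w x := by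
  choose g h1 h2 using fun w => (hc w).gr
  have p : ∀ w, 0 ≤ |a w| / b w := fun w => by have := hb w; positivity
  have e : ∀ t, 0 ≤ t → ∑ w ∈ s, |a w| / b w * (k w * t) ≤ K * t := fun t ht =>
    cvx_le s hb (mul_nonneg hK ht) h fun w _ => by nlinarith [hk w]
  have sm : ∀ w, Sm I fun x => a w • ψ w x := fun w x => SA.smul (f := fun _ => a w) contMDiffAt_const ((hc w).sm x)
  refine ⟨contMDiff_finsetSum fun w _ => sm w, fun x => (jensen s hb h _).trans
    ((Finset.sum_le_sum fun w _ => mul_le_mul_of_nonneg_left ((hc w).le x) (p w)).trans (e σ hσ)),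
    _, (dom_sum s (fun w _ => p w) fun w _ => h1 w).mono (e σ hσ) fun _ => le_rfl, fun x => ?_⟩
  calc gr2 I F.e A (fun x => ∑ w ∈ s, a w • ψ w x) x
      ≤ ∑ i, ∑ w ∈ s, |a w| / b w * ‖nab I F.e A i (ψ w) x‖ ^ 2 := by
        rw [gr2_eq]
        refine Finset.sum_le_sum fun i _ => ?_
        rw [nab_sum i s (u := fun w x => a w • ψ w x) fun w => sm w x]
        simp only [nab_csmul i _ ((hc _).sm x)]
        exact jensen s hb h _
    _ = ∑ w ∈ s, |a w| / b w * gr2 I F.e A (ψ w) x := by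
        rw [Finset.sum_comm]; simp only [gr2_eq, Finset.mul_sum]
    _ ≤ ∑ w ∈ s, (|a w| / b w * (k w * (σ + γ x)) + |a w| / b w * g w x) :=
        Finset.sum_le_sum fun w _ => by
          rw [← mul_add]; exact mul_le_mul_of_nonneg_left (h2 w x) (p w)
    _ ≤ _ := by
        rw [Finset.sum_add_distrib]; exact add_le_add_left (e _ (add_nonneg hσ (hγ x))) _

variable {B : Base M ι lam} {G : Geo I M ι lam} {w : M → M → ℝ} {τ τ' : Pt M ι lam r n}

/-- **convex combinations in the class `Bd`** -/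
theorem bd_fsum {τ : W → Pt M ι lam r n} {k e ρ : W → ℝ} {q : W →₀ ℝ} (hb : ∀ w, 1 ≤ b w)
    (hK : 0 ≤ K) (hε : 0 ≤ ε) (hR : 0 ≤ R) (h : (q.sum fun w a => |a| * b w) ≤ 1)
    (hk : ∀ w, k w ≤ K * b w ^ 2) (he : ∀ w, e w ≤ ε * b w) (hρ : ∀ w, ρ w ≤ R * b w)
    (hτ : ∀ i, (τ i).Bd B G w (k i) (e i) (ρ i)) : (fsum τ q).Bd B G w K ε R := by
  have b0 : ∀ w, 0 < b w := fun w => one_pos.trans_le (hb w)
  refine ⟨hK, hε, hR, fun c σ a l => ctl_cvx q.support b0 hK (by linarith [l.one])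
    (fun _ => gr2_nonneg) h hk fun i => (hτ i).D c σ a l, fun c σ a l => ?_⟩
  choose g h1 h2 using fun i => (hτ i).C c σ a l
  have s0 : 0 ≤ σ := by linarith [l.one]
  have p : ∀ w, 0 ≤ |q w| / b w := fun w => by have := b0 w; positivity
  have n0 : ∀ i, 0 ≤ e i * σ + ρ i := fun i => add_nonneg (mul_nonneg (hτ i).e0 s0) (hτ i).R0
  have n1 : ∀ i, e i * σ + ρ i ≤ (ε * σ + R) * b i := fun i => by
    nlinarith [mul_le_mul_of_nonneg_right (he i) s0, hρ i]
  have n2 : 0 ≤ ε * σ + R := by positivity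
  refine ⟨_, (dom_sum q.support (fun i _ => p i) fun i _ => h1 i).mono (cvx_le _ b0 n2 h fun i _ =>
    (n1 i).trans (by gcongr; nlinarith [hb i])) fun _ => le_rfl, fun x => (jensen _ b0 h _).trans ?_⟩
  refine (Finset.sum_le_sum fun i _ => mul_le_mul_of_nonneg_left (h2 i x) (p i)).trans ?_
  simp only [mul_add (|q _| / b _), Finset.sum_add_distrib]
  exact add_le_add_left (cvx_le _ b0 (sq_nonneg _) h fun i _ => by
    rw [← mul_pow]; exact pow_le_pow_left₀ (n0 i) (n1 i) 2) _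

theorem b0_congr (h : B0 B G τ K) (hD : ∀ c x, τ'.D c x = τ.D c x) (hC : ∀ c x, τ'.C c x = τ.C c x) :
    B0 B G τ' K :=
  ⟨h.K0, fun c σ a h1 h2 => (funext (hD c) : τ'.D c = τ.D c) ▸ h.D c σ a h1 h2,
    fun c a => (h.C c a).mono le_rfl fun x => by rw [hC]⟩

theorem b0_smul (h : B0 B G τ K) {t : ℝ} (ht : |t| ≤ R) : B0 B G (τ.smul t) (4 * R ^ 2 * K) := by
  have e : t ^ 2 ≤ R ^ 2 := sq_le_sq' (neg_le_of_abs_le ht) (le_of_abs_le ht)
  have k := h.K0
  refine B0.mono (K := 4 * t ^ 2 * K) ⟨by positivity, fun c σ a h1 h2 => (h.D c σ a h1 h2).smul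
    (by linarith) (fun _ => gr2_nonneg) k (sq_nonneg _) (Fn.const t), fun c a =>
      ((h.C c a).mul (sq_nonneg t)).mono (by nlinarith [mul_nonneg (sq_nonneg t) k]) fun x => ?_⟩
    (by gcongr)
  rw [Pt.smul, norm_smul, mul_pow, Real.norm_eq_abs, sq_abs]

theorem b0_dsum {J : Type} [Fintype J] {p : J → Prop} {τ : ∀ i, p i → Pt M ι lam r n} (hK : 0 ≤ K)
    (h : ∀ i hi, B0 B G (τ i hi) K) :
    B0 B G (Pt.dsum p τ) (2 ^ Fintype.card J * (Fintype.card J * K)) := by
  classical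
  have e : (Fintype.card J * K : ℝ) = ∑ _i : J, K := by simp
  rw [e]
  refine ⟨by rw [← e]; positivity, fun c σ a h1 h2 => Ctl.sum Finset.univ (by linarith)
    (fun _ => gr2_nonneg) (fun _ _ => hK) fun i _ => ?_,
    fun c a => Dom.sq_sum Finset.univ (fun _ _ => hK) fun i _ => ?_⟩
  · by_cases hi : p i
    · simpa only [dif_pos hi] using (h i hi).D c σ a h1 h2
    · simpa only [dif_neg hi] using Ctl.zero (by linarith) (fun _ => gr2_nonneg) hK
  · by_cases hi : p i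
    · simpa only [dif_pos hi] using (h i hi).C c a
    · simpa [dif_neg hi] using Dom.zero (F := G.F) hK

theorem fsum_smul_D (τ : W → Pt M ι lam r n) (t : ℝ) (q : W →₀ ℝ) (c : Cfg M ι lam r) (x : M) :
    (fsum τ (t • q)).D c x = t • (fsum τ q).D c x := by
  simp only [fsum, ← Finsupp.linearCombination_apply, map_smul]

theorem fsum_smul_C (τ : W → Pt M ι lam r n) (t : ℝ) (q : W →₀ ℝ) (c : Cfg M ι lam r) (x : M) :
    (fsum τ (t • q)).C c x = t • (fsum τ q).C c x := by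
  simp only [fsum, ← Finsupp.linearCombination_apply, map_smul]

variable [I.Boundaryless] [T2Space M] [BorelSpace M] {S : ℝ} {N : ℕ}

/-- one term -/
theorem bd_tm (hw : Wts G.F S w) (hB : B.OK I) (hN : 1 ≤ N) {T : Tm M lam r n} {t : ℝ}
    (hT : t ≠ 0 → TmSz G N T) (ht : |t| ≤ R) : ((tmP B G.F T).smul t).Bd B G w
      (4 * R ^ 2 * (64 * N * (4 * N) ^ N)) (R * kC N S) (R * kC N S) := by
  have R0 := (abs_nonneg t).trans ht
  have k0 : 0 ≤ kC N S := by unfold kC; positivity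
  have e : t ^ 2 ≤ R ^ 2 := sq_le_sq' (neg_le_of_abs_le ht) (le_of_abs_le ht)
  refine bd_of_sup (by positivity) (by positivity) (by positivity) (fun c σ a l => ?_)
    fun c σ a l x => ?_
  · have s0 : 0 ≤ σ := by linarith [l.one]
    rcases eq_or_ne t 0 with rfl | h
    · simpa [Pt.smul] using Ctl.zero (F := G.F) (A := c.W) s0 (fun _ => gr2_nonneg)
        (by positivity : 0 ≤ 4 * R ^ 2 * (64 * N * (4 * N) ^ N : ℝ))
    · exact ((ctl_tD hw.bp hB a hN l.Φ s0 (hT h)).smul s0 (fun _ => gr2_nonneg) (by positivity)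
        (sq_nonneg _) (Fn.const t)).mono s0 (fun _ => gr2_nonneg) (by gcongr)
  · have s0 : 0 ≤ σ := by linarith [l.one]
    rcases eq_or_ne t 0 with rfl | h
    · simp only [Pt.smul, zero_smul, norm_zero]; positivity
    · have q1 : qd T ≤ 1 := by cases T <;> simp [qd]
      have := norm_tC hw hB a hN l (hT h) x
      calc ‖t • c.tC B G.F T x‖ ≤ R * (kC N S * (1 * σ + 1)) := by
            rw [norm_smul]; exact mul_le_mul ht (this.trans (by gcongr)) (norm_nonneg _) R0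
        _ = _ := by ring

end gen

variable {E3 : Type} [NormedAddCommGroup E3] [NormedSpace ℝ E3] [FiniteDimensional ℝ E3]
  [MeasurableSpace E3] [BorelSpace E3]
  {H3 : Type} [TopologicalSpace H3] {I3 : ModelWithCorners ℝ E3 H3} [I3.Boundaryless]
  {Y : Type} [TopologicalSpace Y] [ChartedSpace H3 Y] [IsManifold I3 ∞ Y] [T2Space Y]
  [MeasurableSpace Y] [BorelSpace Y] [SecondCountableTopology Y] [CompactSpace Y]
  {κ : Type} [Fintype κ] {lam : Type} [Fintype lam]
  {D : YD I3 Y κ lam} {S : ℝ} {r m : ℕ} (hD : D.OK) {N : ND Y lam} (hN : N.OK D)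
include hD hN

/-- the gradient term, uniformly in the coupling -/
theorem b0_q1s (hS : 0 < S) (R : ℝ) : ∀ᶠ K in atTop, ∀ ν, |ν| ≤ R → ∀ X : NK D S,
    B0 X.B X.G ((N.smul ν).q1 X.K : Pt X.M (Option κ) lam r m) K := by
  obtain ⟨k, k0, hk⟩ := ((eventually_ge_atTop (0 : ℝ)).and
    (eventually_all.2 (db_dg (r := r) hD hN hS))).exists
  obtain ⟨n, n1, a, b⟩ := ((eventually_ge_atTop 1).and ((gd_fn (S := S) (g := none) hD
    (by simp [OF])).and (ev_nat (cb N.δ 1)))).exists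
  have hφ := hN.sm.comp (cd_cx (N := N))
  obtain ⟨L, L1, hL⟩ := ball_bd hφ (|k| * Nka63.vY D)
  refine (eventually_ge_atTop (64 * n * (2 ^ Fintype.card N.J * ∑ _j : N.J,
    k * ((n * (max 1 R * L)) ^ 2 * n)))).mono fun K hK ν hν X => B0.mono (dg_b0 (D := (N.smul ν).dg X.K)
    (L := max 1 R * L) X.hb X.hB n1 (a X) (fun j => hk j X) k0 (fun _ => hN.δ0) (fun _ => b)
    (one_le_mul_of_one_le_of_one_le (le_max_left _ _) L1) fun c h j => ?_) hK
  have hψ : ContDiff ℝ ∞ fun x => ν * (N.φ ∘ N.cx) x := contDiff_const.mul hφ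
  refine ⟨contDiff_ct.continuous.mul (((hψ.continuous_fderiv (by simp)).comp
      (continuous_pi fun i => ((Nka63.wi X.K hN.δ0 ((hk i X).ct c h).aestronglyMeasurable
        (den_off X i c) fun x _ => (hk i X).le c h x).contDiff_wn hN.δ0).continuous)).clm_apply
          continuous_const), fun t => ?_⟩
  have e := (hL ((N.dg X.K).Iv X.G.F c t) ((pi_norm_le_iff_of_nonneg (mul_nonneg (abs_nonneg _)
    (Nka63.vY_nonneg D))).2 fun i => Nka63.norm_wn_le X.K hN.δ0 (den_off X i c)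
      (fun x _ => (hk i X).le c h x) t)).2
  refine (abs_mul _ _).trans_le ((mul_le_of_le_one_left (abs_nonneg _)
    ((abs_of_nonneg ct_mem.1).trans_le ct_mem.2)).trans
      ((Real.norm_eq_abs _).symm.trans_le ((ContinuousLinearMap.le_opNorm _ _).trans ?_)))
  rw [Pi.norm_single, norm_one, mul_one]
  refine le_trans (le_of_eq (congrArg norm (fderiv_const_mul
    (hφ.differentiable (by simp) _) ν))) ?_
  exact (norm_smul ν (fderiv ℝ (N.φ ∘ N.cx) ((N.dg X.K).Iv X.G.F c t))).trans_le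
    (mul_le_mul (hν.trans (le_max_right _ _)) e (norm_nonneg _) (by positivity))

/-- the non-gradient terms with coefficients `ν • t` -/
theorem b0_q2s (t : YW I3 Y →₀ ℝ) (R : ℝ) : ∀ᶠ K in atTop, ∀ ν, |ν| ≤ R → ∀ X : NK D S,
    B0 X.B X.G (fsum (fun T => N.q2 X.K T.1) (ν • t) : Pt X.M (Option κ) lam r m) K := by
  choose k hk using fun T : YW I3 Y => b0_q2 (r := r) (m := m) (S := S) hD hN T.2
  exact (eventually_ge_atTop _).mono fun K hK ν hν X => (b0_congr (b0_smul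
    (b0_fsum (fun T => hk T X) t) hν) (fsum_smul_D _ _ _) (fsum_smul_C _ _ _)).mono hK

end Crest.Agent.X212.Fin37
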