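import Crest.Agent.X212.Fin37.Apr
import Crest.Agent.X212.M.Wu
import Crest.Agent.X212.Ink3.Main

/-!
# Row 212, FIN (helper37): **JOB-APR** and **FIN** (finitely many energies)
-/

set_option autoImplicit false
set_option linter.unusedSectionVars false
noncomputable section
open scoped Manifold ContDiff Topology InnerProductSpace
open MeasureTheory Set Function Filter

namespace Crest.Agent.X212.Fin37
open An An.Job M Nd18
open Mp86 (Wts)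
open Dgr80 (LB)

theorem fin_cls {V : Set ℝ} (hV : V.Finite) (C : ℝ) :
    {x | |x| ≤ C ∧ ∃ v ∈ V, ∃ m : ℤ, x = v + m}.Finite :=
  (hV.biUnion fun v _ => (finite_Icc ⌈-C - v⌉ ⌊C - v⌋).image fun m : ℤ => v + m).subset
    fun _ ⟨h, v, hv, m, e⟩ => mem_biUnion hv ⟨m, ⟨Int.ceil_le.2 (by linarith [(abs_le.1 h).1]),
      Int.le_floor.2 (by linarith [(abs_le.1 h).2])⟩, e.symm⟩

variable {Wi : Type} {X : Mf 4} {A κ lam : Type} [Fintype A] [Fintype κ] [Fintype lam]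
  [DecidableEq lam] {M : Mark X A κ} {W : World M} {N : ML M lam}
  {Λ : Lns W N} {A' h : Type} [Fintype A'] [DecidableEq A'] [Fintype h] {r n : ℕ}
  (J : Job Wi Λ A' h r n) {Adm : (Wi →₀ ℝ) → Prop} {T : Xs Wi κ lam}

variable (T) in
/-- the functional is bounded on the critical points -/
def LvB : Prop := ∃ L, ∀ β, T.N.Crit T.D β → |T.N.lv T.D β| ≤ L

/-- INPUT LVB -/
def LVB : Prop := ∀ a ∈ J.hw, ¬M.pin a → LvB (J.xs a)

theorem lvB_cd (hD : T.D.OK) (hN : T.N.OK T.D) (S : T.N.CD T.D) : LvB T :=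
  ⟨∑ i, |T.N.lv T.D (S.β i)|, fun β h =>
    let ⟨i, e⟩ := S.cov β h
    (congrArg abs ((Eqv71.okZ hD T.Y.dim.le).lv_iso hN (Eqv71.ad0 h.sol.toAdm)
      (Eqv71.ad0 (S.crit i).sol.toAdm) e)).ge.trans (Finset.single_le_sum
        (f := fun i => |T.N.lv T.D (S.β i)|) (fun _ _ => abs_nonneg _) (Finset.mem_univ i))⟩

theorem lvB_psc (hN : Ink3.Nil T.N) (hB : ∀ β, T.N.Crit T.D β → ∀ y, β.Φ y = 0) : LvB T :=
  ⟨0, fun β h => by simp [hN.lv, hB β h]⟩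

variable {J} (hJ : J.OK)
include hJ

theorem kb (lv : LVB J) : ∃ L, ∀ Adm, CHH J Adm → KB J L Adm := by
  choose! L hL using lv
  refine ⟨∑ a, |L a|, fun Adm ch σ hσ c q y hq H a ha => ?_⟩
  have m := hJ.sub_hw hσ H.ov ha.1
  obtain ⟨C, V, -, k⟩ := ch a m ha.2
  have k := (k q _ _ _ _ _ _ hq (H.crit a ha false) (H.crit a ha true) (H.brk a ha)).1
  have := div_le_div_of_nonneg_right (c := 8 * Real.pi ^ 2) (b := 2 * |L a|) (by
    linarith [abs_le.1 (hL a m ha.2 _ (H.crit a ha false)), abs_le.1 (hL a m ha.2 _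
      (H.crit a ha true)), le_abs_self (L a)] : (J.xs a).N.lv (J.xs a).D (y.β a false) -
        (J.xs a).N.lv (J.xs a).D (y.β a true) ≤ _) (by positivity)
  have e : 2 * |L a| / (8 * Real.pi ^ 2) ≤ |L a| := by
    rw [div_le_iff₀ (by positivity)]
    linarith [mul_le_mul_of_nonneg_left (show 2 ≤ 8 * Real.pi ^ 2 by nlinarith [Real.pi_gt_three])
      (abs_nonneg (L a))]
  rw [cE] at k
  linarith [Finset.single_le_sum (f := fun a => |L a|) (fun _ _ => abs_nonneg _) (Finset.mem_univ a)]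

/-- **JOB-APR** for the weights `J.wx` -/
theorem aprX (tz : TMSZ J) (lit : LIT J) (lv : LVB J) : ∃ S > 0, ∃ v, WU J J.wx S v ∧
    An.Sml fun Adm => FEN J Adm → CHH J Adm → ∃ C K, ∀ σ ∈ J.𝒦, ∀ c q (y : J.Obc c),
      Adm q → Sol σ q y → Bnd J.wx C y ∧ ∀ w', Wts (J.G c y.s).F S w' →
        (J.τ c q y.s).Bd (J.B c) (J.G c y.s) w' K 1 K :=
  let ⟨S, S0, hS⟩ := Pat85.l4U hJ
  let ⟨v, hw⟩ := wu hJ (Pat85.volJ hJ) S0 hS
  let ⟨L, hL⟩ := kb hJ lv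
  ⟨S, S0, v, hw, (aprW hJ tz lit S0 hw L).mono fun Adm k f c => k f (hL Adm c)⟩

/-- **JOB-APR** -/
theorem apr (tz : TMSZ J) (lit : LIT J) (lv : LVB J) :
    An.Sml fun Adm => FEN J Adm → CHH J Adm → Apr J Adm :=
  let ⟨S, _, v, hw, k⟩ := aprX hJ tz lit lv
  k.mono fun _ k f c => let ⟨C, K, k⟩ := k f c
    ⟨_, S, v, C, K, hw, fun σ hσ c q y hq H => (k σ hσ c q y hq H).imp_right fun k =>
      k _ (hw.wts c _ ⟨σ, hσ, H.cell, H.inf⟩)⟩

theorem finE_of (ha : Apr J Adm) (ch : CHH J Adm) {σ : Cel A'} (hσ : σ ∈ J.𝒦) (c : M.Cl) :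
    J.FinE σ c Adm := by
  obtain ⟨w, S, v, C, K, -, ha⟩ := ha
  choose! C' V hV k using ch
  have f : ∀ a, ∃ T : Set ℝ, T.Finite ∧ ∀ q (y : J.Obc c), Adm q → Sol σ q y → (cylW c).indicator
      (fun a => cE (J.xs a) (y.β a false) (y.β a true) (y.k a)) a ∈ T := fun a => by
    by_cases hc : a ∈ cylW c ∧ a ∈ J.hw
    · refine ⟨_, fin_cls (hV a hc.2 hc.1.2) (C' a + C), fun q y hq H => ?_⟩
      have k := k a hc.2 hc.1.2 q _ _ _ _ _ _ hq (H.crit a hc.1 false) (H.crit a hc.1 true)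
        (H.brk a hc.1)
      rw [indicator_of_mem hc.1]
      exact ⟨(abs_sub_abs_le_abs_sub _ _).trans k.2.1 |> sub_le_iff_le_add.1 |>.trans
        (add_le_add_right ((ha σ hσ c q y hq H).1.k a hc.1) _), k.2.2⟩
    · exact ⟨{0}, finite_singleton _, fun q y _ H =>
        indicator_of_notMem (fun e => hc ⟨e, hJ.sub_hw hσ H.ov e.1⟩) _⟩
  choose T hT f using f
  refine (((finite_Iic ⌈C⌉₊).prod (Finite.pi' hT)).image fun p => (p.1 : ℝ) + ∑ a, p.2 a).subset ?_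
  rintro _ ⟨q, y, hq, H, rfl⟩
  exact ⟨(y.l, _), ⟨Nat.cast_le.1 ((ha σ hσ c q y hq H).1.l.trans (Nat.le_ceil C)),
    fun a => f a q y hq H⟩, rfl⟩

/-- **FIN** -/
theorem finE (tz : TMSZ J) (lit : LIT J) (lv : LVB J) :
    An.Sml fun Adm => FEN J Adm → CHH J Adm → ∀ σ ∈ J.𝒦, ∀ c, J.FinE σ c Adm :=
  (apr hJ tz lit lv).mono fun _ k f c _ hσ => finE_of hJ (k f c) c hσ

/-- weighted curvature bounds -/
theorem Bnd.wt {w : Wf W A'} {C a : ℝ} {c : M.Cl} {y : J.Obc c} (h : Bnd w C y) (p : Pm J c y.s)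
    (hy : y.x.Adm (J.B c) (J.G c y.s)) {φ : (W.Z c).M → ℝ} (hφ : Sm (W.Z c).I φ)
    (h1 : ∀ z, |φ z| ≤ 1) (l0 : LB (J.G c y.s).F.μ (fun z => φ z ^ 2) a)
    (l1 : LB (J.G c y.s).F.μ (fun z => ∑ i, (J.G c y.s).F.D i φ z ^ 2) a) : LB (J.G c y.s).F.μ
      (fun z => (φ z * ‖y.x.m.Fg (J.G c y.s).F y.x.W z‖) ^ 2) ((12 * C + 30 * C) * a + C) := by
  classical
  obtain ⟨g, f, k1, k2, k3, k4⟩ := h.F
  exact lb_wt (Λ.B_ok _ _) (p.ok hJ).1 (p.cut hJ) hy (one_pos.trans_le h.le.one)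
    (zero_le_one.trans h.le.one) k1 k2 k3 (fun z => (k4 z).1) (fun z => (k4 z).2) hφ
    (fun z => (sq_le_one_iff_abs_le_one _).2 (h1 z)) l0 l1

end Crest.Agent.X212.Fin37
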